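import Vale.Agent.P218FS.Stmt
import Vale.Agent.P218FT.Defs

/-! The final statement, and what it is deduced from. -/

open MeasureTheory Set Filter Topology
open scoped Manifold ContDiff RealInnerProductSpace

namespace Vale.Agent.P218FS

open Vale.Agent.P218FT

universe u

/-- **The final statement.** -/
def FinalStmt : Prop :=
  ∀ (N : Type u) [TopologicalSpace N] [T2Space N] [CompactSpace N] [ConnectedSpace N]
    [ChartedSpace R2 N] [IsManifold (𝓡 2) ∞ N] (F : ℝ → N → R3) (T : ℝ), IsSmoothMCF F T →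
    ∀ μ : ℝ → Measure R3, (∀ t ∈ Ico 0 T, μ t = (μHE[2] : Measure R3).restrict (range (F t))) →
    ∀ (x₀ : R3) (t₀ : ℝ), 0 < t₀ → t₀ ≤ T →
    ∃ S : Set R3, IsShrinker S ∧ (S.Nonempty ↔ IsReached F x₀ t₀) ∧
      IsTangentFlow μ x₀ t₀ (shrinkerFlow S) ∧
      (∀ s < 0, WeakTendsto atTop (fun lam : ℝ => rescaled μ x₀ t₀ lam s) (shrinkerFlow S s)) ∧
      ∀ ν : ℝ → Measure R3, IsTangentFlow μ x₀ t₀ ν → ∀ s < 0, ν s = shrinkerFlow S s

/-- a flow of closed connected surfaces on `(a, b)` -/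
structure IsClosedFlow (M : ℝ → Set E3) (a b : ℝ) : Prop where
  mcf : IsMCF M (Ioo a b)
  bdd : ∃ R : ℝ, ∀ t ∈ Ioo a b, M t ⊆ Metric.closedBall 0 R
  conn : ∀ t ∈ Ioo a b, IsConnected (M t)

/-- uniform area ratios, after any positive time -/
def RatioStmt : Prop :=
  ∀ (M : ℝ → Set E3) (a b : ℝ), IsClosedFlow M a b → ∀ a' ∈ Ioo a b,
    ∃ D : ℝ, ∀ t ∈ Ioo a' b, AreaRatio D (M t)

/-- uniform local Gauss-Bonnet estimate, after any positive time -/
def LGBFlowStmt : Prop :=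
  ∀ (M : ℝ → Set E3) (a b : ℝ), IsClosedFlow M a b → ∀ a' ∈ Ioo a b,
    ∃ G : ℝ, ∀ t ∈ Ioo a' b, LGB G (M t)

/-- **The core**: for closed flows of class `C(D, G)` the rescalings about `(x₀, b)` converge. The limit
is `s ↦ √(-s) S`. -/
def CoreStmt : Prop :=
  ∀ (D G : ℝ) (M : ℝ → Set E3) (a b : ℝ), a < b → IsClosedFlow M a b → InC D G M (Ioo a b) →
    ∀ x₀ : E3, ∃ S : Set E3, IsSurf S ∧ (∀ x ∈ S, relV S 0 1 x = 0) ∧
      ∀ s < 0, ∀ φ : E3 → ℝ, Continuous φ → HasCompactSupport φ →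
        Tendsto (fun lam : ℝ => ∫ x, φ x ∂(area (scaleFlow lam x₀ b M s))) atTop
          (𝓝 (∫ x, φ x ∂(area (scaleSet (√(-s)) 0 S))))

end Vale.Agent.P218FS
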