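import Vale.Agent.P218FS.Embed
import Vale.Agent.P218FS.Spec
import Vale.Agent.P218FT.Chart
import Vale.Agent.P218FT.Local
import Mathlib.Analysis.Calculus.InverseFunctionTheorem.ContDiff
import Mathlib.Analysis.Normed.Ring.Units
import Mathlib.Analysis.Normed.Operator.Banach

/-! From parametrised flows to flows of sets, and from surfaces to parametrisations. -/

open MeasureTheory Set Filter Topology
open scoped Manifold ContDiff RealInnerProductSpace

namespace Vale.Agent.P218FS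

open Vale.Agent.P218FT

/-- the smooth inverse function theorem, with a globally smooth local inverse -/
lemma exists_smooth_inverse {X Y : Type*} [NormedAddCommGroup X] [NormedSpace ℝ X]
    [FiniteDimensional ℝ X] [NormedAddCommGroup Y] [NormedSpace ℝ Y] [FiniteDimensional ℝ Y]
    {Φ : X → Y} (hΦ : ContDiff ℝ ∞ Φ) {a : X} (hd : Module.finrank ℝ X = Module.finrank ℝ Y)
    (hi : Function.Injective (fderiv ℝ Φ a)) :
    ∃ Ψ : Y → X, ContDiff ℝ ∞ Ψ ∧ (∀ᶠ x in 𝓝 a, Ψ (Φ x) = x) ∧ ∀ᶠ y in 𝓝 (Φ a), Φ (Ψ y) = y := by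
  have : CompleteSpace X := FiniteDimensional.complete ℝ X
  have hD : ∀ x, HasFDerivAt Φ (fderiv ℝ Φ x) x := fun x =>
    (hΦ.differentiable (by simp) x).hasFDerivAt
  let e : X ≃L[ℝ] Y :=
    (LinearMap.linearEquivOfInjective (fderiv ℝ Φ a : X →ₗ[ℝ] Y) hi hd).toContinuousLinearEquiv
  have he : (e : X →L[ℝ] Y) = fderiv ℝ Φ a := by ext v; rfl
  have hDa : HasFDerivAt Φ (e : X →L[ℝ] Y) a := he ▸ hD a
  let E := (hΦ.contDiffAt (x := a)).toOpenPartialHomeomorph Φ hDa (by simp)
  have hE : (E : X → Y) = Φ := rfl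
  have ha : a ∈ E.source := ContDiffAt.mem_toOpenPartialHomeomorph_source _ _ _
  have h1 : ∀ᶠ x in 𝓝 a, fderiv ℝ Φ x ∈ range ((↑) : (X ≃L[ℝ] Y) → X →L[ℝ] Y) :=
    (hΦ.continuous_fderiv (by simp)).continuousAt.eventually (he ▸ e.nhds)
  have h2 : Tendsto E.symm (𝓝 (Φ a)) (𝓝 a) := E.tendsto_symm ha
  have h3 : ∀ᶠ y in 𝓝 (Φ a), y ∈ E.target := E.open_target.mem_nhds (E.map_source ha)
  have h4 : ∀ᶠ y in 𝓝 (Φ a), ContDiffAt ℝ ∞ E.symm y := by
    filter_upwards [h2.eventually h1, h3] with y ⟨e', he'⟩ hy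
    exact E.contDiffAt_symm (f₀' := e') hy (by rw [he']; exact hD _) hΦ.contDiffAt
  obtain ⟨Ψ, hΨ, hΨe⟩ := Chart.exists_contDiff_eventuallyEq (k := ⊤) h4
  refine ⟨Ψ, hΨ, ?_, ?_⟩
  · filter_upwards [hΦ.continuous.continuousAt.eventually hΨe, E.open_source.mem_nhds ha]
      with x hx hx'
    rw [hx]; exact E.left_inv hx'
  · filter_upwards [hΨe, h3] with y hy hy'
    rw [hy]; exact E.right_inv hy'

/-- a smooth family of immersed sheets is locally a regular level set -/
lemma exists_level {f : ℝ × R2 → R3} (hf : ContDiff ℝ ∞ f) {t : ℝ} {u : R2}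
    (hL : Function.Injective (fderiv ℝ (fun v => f (t, v)) u)) :
    ∃ w : ℝ × R3 → ℝ, ContDiff ℝ ∞ w ∧ gradient (fun y => w (t, y)) (f (t, u)) ≠ 0 ∧
      (∀ᶠ z in 𝓝 (t, u), w (z.1, f z) = 0) ∧
      ∀ P : ℝ × R2 → Prop, (∀ᶠ z in 𝓝 (t, u), P z) → ∀ᶠ y in 𝓝 (t, f (t, u)), w y = 0 →
        ∃ v, P (y.1, v) ∧ f (y.1, v) = y.2 := by
  obtain ⟨n, hn1, hn⟩ := exists_unit_normal hL
  set Φ : (ℝ × R2) × ℝ → ℝ × R3 := fun z => (z.1.1, f z.1 + z.2 • n) with hΦ
  have hΦs : ContDiff ℝ ∞ Φ := by fun_prop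
  have hfd : HasFDerivAt f (fderiv ℝ f (t, u)) (t, u) :=
    (hf.differentiable (by simp) _).hasFDerivAt
  have hsl : fderiv ℝ (fun v => f (t, v)) u =
      (fderiv ℝ f (t, u)).comp (ContinuousLinearMap.inr ℝ ℝ R2) :=
    (hfd.comp u (hasFDerivAt_prodMk_right t u)).fderiv
  have hΦd : HasFDerivAt Φ
      (((ContinuousLinearMap.fst ℝ ℝ R2).comp (ContinuousLinearMap.fst ℝ (ℝ × R2) ℝ)).prod
        ((fderiv ℝ f (t, u)).comp (ContinuousLinearMap.fst ℝ (ℝ × R2) ℝ) +
          (ContinuousLinearMap.snd ℝ (ℝ × R2) ℝ).smulRight n)) ((t, u), 0) :=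
    (hasFDerivAt_fst.comp _ hasFDerivAt_fst).prodMk
      ((hfd.comp ((t, u), (0 : ℝ)) hasFDerivAt_fst).add (hasFDerivAt_snd.smul_const n))
  have hinj : Function.Injective (fderiv ℝ Φ ((t, u), 0)) := by
    rw [hΦd.fderiv, injective_iff_map_eq_zero]
    rintro ⟨⟨a, v⟩, c⟩ hz
    have h1 : a = 0 := congrArg Prod.fst hz
    have h2 : fderiv ℝ f (t, u) (a, v) + c • n = 0 := congrArg Prod.snd hz
    subst h1
    have h3 : fderiv ℝ f (t, u) (0, v) = fderiv ℝ (fun v => f (t, v)) u v := by rw [hsl]; rfl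
    rw [h3] at h2
    have h4 : c = 0 := by
      have := congrArg (fun y => ⟪y, n⟫) h2
      simpa [inner_add_left, hn, inner_smul_left, hn1] using this
    subst h4
    have h5 : v = 0 := hL (by simpa using h2)
    subst h5
    rfl
  obtain ⟨Ψ, hΨ, h1, h2⟩ := exists_smooth_inverse hΦs (by simp) hinj
  have hΦ0 : Φ ((t, u), 0) = (t, f (t, u)) := by simp [hΦ]
  rw [hΦ0] at h2
  refine ⟨fun y => (Ψ y).2, by fun_prop, ?_, ?_, ?_⟩
  · intro hg
    have h3 : ∀ᶠ σ in 𝓝 (0 : ℝ), (Ψ (t, f (t, u) + σ • n)).2 = σ := by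
      have : Tendsto (fun σ : ℝ => ((t, u), σ)) (𝓝 0) (𝓝 ((t, u), 0)) :=
        Continuous.tendsto' (by fun_prop) _ _ rfl
      filter_upwards [this.eventually h1] with σ hσ
      exact congrArg Prod.snd hσ
    have h4 : DifferentiableAt ℝ (fun y => (Ψ (t, y)).2) (f (t, u) + (0 : ℝ) • n) :=
      (ContDiff.differentiable (n := ∞) (by fun_prop) (by simp)) _
    have h5 : HasDerivAt (fun σ : ℝ => f (t, u) + σ • n) n 0 := by
      simpa using ((hasDerivAt_id (0 : ℝ)).smul_const n).const_add (f (t, u))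
    have h7 : HasDerivAt (fun σ : ℝ => (Ψ (t, f (t, u) + σ • n)).2) 1 0 :=
      (hasDerivAt_id (0 : ℝ)).congr_of_eventuallyEq h3
    have h8 : HasDerivAt (fun σ : ℝ => (Ψ (t, f (t, u) + σ • n)).2)
        (fderiv ℝ (fun y => (Ψ (t, y)).2) (f (t, u) + (0 : ℝ) • n) n) 0 :=
      HasFDerivAt.comp_hasDerivAt (l := fun y => (Ψ (t, y)).2)
        (f := fun σ : ℝ => f (t, u) + σ • n) (0 : ℝ) h4.hasFDerivAt h5
    have h6 := h8.unique h7
    rw [← inner_gradient, zero_smul, add_zero, hg, inner_zero_left] at h6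
    exact zero_ne_one h6
  · have : Tendsto (fun z : ℝ × R2 => (z, (0 : ℝ))) (𝓝 (t, u)) (𝓝 ((t, u), 0)) :=
      Continuous.tendsto' (by fun_prop) _ _ rfl
    filter_upwards [this.eventually h1] with z hz
    simpa [hΦ] using congrArg Prod.snd hz
  · intro P hP
    have h3 : Ψ (t, f (t, u)) = ((t, u), 0) := by rw [← hΦ0]; exact h1.self_of_nhds
    have h4 : Tendsto (fun y => (Ψ y).1) (𝓝 (t, f (t, u))) (𝓝 (t, u)) :=
      Continuous.tendsto' hΨ.continuous.fst _ _ (by rw [h3])
    filter_upwards [h2, h4.eventually hP] with y hy hy' hw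
    have h5 : (Ψ y).1.1 = y.1 := congrArg Prod.fst hy
    have h6 : f (Ψ y).1 + (Ψ y).2 • n = y.2 := congrArg Prod.snd hy
    rw [hw, zero_smul, add_zero] at h6
    refine ⟨(Ψ y).1.2, ?_, ?_⟩
    · rw [← h5]; exact hy'
    · rw [← h5]; exact h6

variable {N : Type*} [TopologicalSpace N] [ChartedSpace R2 N] {F : ℝ → N → R3} {T : ℝ}
  [IsManifold (𝓡 2) ∞ N] [CompactSpace N] [T2Space N]

/-- the images of a smooth flow form a flow of sets -/
theorem IsSmoothMCF.isMCF (h : IsSmoothMCF F T) : IsMCF (fun t => range (F t)) (Ioo 0 T) where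
  isOpen := isOpen_Ioo
  closed := by
    intro t ht x hx
    have : ∀ᶠ z : ℝ × R3 in 𝓝 (t, x), ∀ q ∈ (univ : Set N), F z.1 q ≠ z.2 := by
      refine isCompact_univ.eventually_forall_of_forall_eventually fun q _ => ?_
      have b0 : Tendsto (fun z : (ℝ × R3) × N => (z.1.1, z.2)) (𝓝 ((t, x), q)) (𝓝 (t, q)) :=
        Continuous.tendsto' (by fun_prop) _ _ rfl
      have b1 : Tendsto (fun z : (ℝ × R3) × N => (F z.1.1 z.2, z.1.2)) (𝓝 ((t, x), q))
          (𝓝 (F t q, x)) :=
        ((h.continuousAt ht q).tendsto.comp b0).prodMk_nhds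
          (Continuous.tendsto' (by fun_prop) _ _ rfl)
      exact b1.eventually (isClosed_diagonal.isOpen_compl.mem_nhds fun hh => hx ⟨q, hh⟩)
    filter_upwards [this] with z hz ⟨q, hq⟩
    exact hz q (mem_univ _) hq
  loc := by
    rintro t ht _ ⟨p, rfl⟩
    have ht' : t ∈ Ico 0 T := ⟨ht.1.le, ht.2⟩
    set u := chartAt R2 p p with hu
    have hO : Ioo 0 T ×ˢ (chartAt R2 p).target ∈ 𝓝 (t, u) :=
      prod_mem_nhds (isOpen_Ioo.mem_nhds ht)
        ((chartAt R2 p).open_target.mem_nhds (mem_chart_target R2 p))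
    have h1 : ∀ᶠ z in 𝓝 (t, u), ContDiffAt ℝ ∞ (rep F p) z := by
      filter_upwards [hO] with z hz
      exact (h.contDiffOn_rep p).contDiffAt (prod_mem_nhds (Ico_mem_nhds hz.1.1 hz.1.2)
        ((chartAt R2 p).open_target.mem_nhds hz.2))
    obtain ⟨f, hf, hfe⟩ := Chart.exists_contDiff_eventuallyEq (k := ⊤) h1
    have hsl : Tendsto (fun v : R2 => (t, v)) (𝓝 u) (𝓝 (t, u)) :=
      Continuous.tendsto' (by fun_prop) _ _ rfl
    have hfe' : (fun v => f (t, v)) =ᶠ[𝓝 u] fun v => rep F p (t, v) := hsl.eventually hfe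
    have hL := h.injective_fderiv p ht' (mem_chart_target R2 p)
    have hx : f (t, u) = F t p := by rw [hfe.eq_of_nhds, hu, rep_self]
    obtain ⟨w, hw, hg, hz, hP⟩ := exists_level hf (t := t) (u := u) (by rw [hfe'.fderiv_eq]; exact hL)
    rw [hx] at hg hP
    have hz' : ∀ᶠ z in 𝓝 (t, u), w (z.1, rep F p z) = 0 := by
      filter_upwards [hz, hfe] with z h1 h2
      rw [← h2]; exact h1
    have hz'' : ∀ᶠ z : ℝ × N in 𝓝 (t, p), w (z.1, F z.1 z.2) = 0 := by
      have a1 : Tendsto (fun z : ℝ × N => (z.1, chartAt R2 p z.2)) (𝓝 (t, p)) (𝓝 (t, u)) :=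
        continuousAt_fst.prodMk (ContinuousAt.comp (f := fun z : ℝ × N => z.2)
          ((chartAt R2 p).continuousAt (mem_chart_source R2 p)) continuousAt_snd)
      have a2 : ∀ᶠ z : ℝ × N in 𝓝 (t, p), z.2 ∈ (chartAt R2 p).source :=
        (continuous_snd.tendsto' _ _ rfl).eventually
          ((chartAt R2 p).open_source.mem_nhds (mem_chart_source R2 p))
      filter_upwards [a1.eventually hz', a2] with z h1 h2
      rwa [rep_chart p _ h2] at h1
    have hiff : ∀ᶠ z : ℝ × R3 in 𝓝 (t, F t p), z.2 ∈ range (F z.1) ↔ w z = 0 := by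
      have a1 : ∀ᶠ z : ℝ × R3 in 𝓝 (t, F t p), ∀ q ∈ (univ : Set N), F z.1 q = z.2 → w z = 0 := by
        refine isCompact_univ.eventually_forall_of_forall_eventually fun q _ => ?_
        have b0 : Tendsto (fun z : (ℝ × R3) × N => (z.1.1, z.2)) (𝓝 ((t, F t p), q)) (𝓝 (t, q)) :=
          Continuous.tendsto' (by fun_prop) _ _ rfl
        by_cases hq : q = p
        · subst hq
          filter_upwards [b0.eventually hz''] with z h1 h2
          simpa only [h2] using h1
        · have b1 : Tendsto (fun z : (ℝ × R3) × N => (F z.1.1 z.2, z.1.2)) (𝓝 ((t, F t p), q))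
              (𝓝 (F t q, F t p)) :=
            ((h.continuousAt ht q).tendsto.comp b0).prodMk_nhds
              (Continuous.tendsto' (by fun_prop) _ _ rfl)
          filter_upwards [b1.eventually (isClosed_diagonal.isOpen_compl.mem_nhds
            fun hh => hq (h.injective ht' hh))] with z h1 h2
          exact absurd h2 h1
      filter_upwards [a1, hP _ hfe] with z h1 h2
      constructor
      · rintro ⟨q, hq⟩
        exact h1 q (mem_univ _) hq
      · intro h3
        obtain ⟨v, hv1, hv2⟩ := h2 h3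
        exact ⟨(chartAt R2 p).symm v, hv1.symm.trans hv2⟩
    refine ⟨w, hw, hg, hiff, ?_⟩
    have hwt : ContDiff ℝ ∞ fun y => w (t, y) := by fun_prop
    have heq : IsEqn (range (F t)) (F t p) fun y => w (t, y) :=
      ⟨hwt, hg, (Continuous.tendsto' (f := fun y : R3 => (t, y)) (by fun_prop) _ _ rfl).eventually
        hiff⟩
    have hH : Hv (range (F t)) (F t p) = meanCurv (F t) p := by
      rw [heq.Hv_eq ⟨p, rfl⟩, meanCurv_eq]
      have := (level_meanCurv (w := fun y => w (t, y)) (h.contDiffAt_two p ht') hL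
        (hwt.of_le two_le_inf).contDiffAt (by rw [rep_self]; exact hg) (hsl.eventually hz')).2
      rwa [rep_self] at this
    have hwd : HasFDerivAt w (fderiv ℝ w (t, F t p)) (t, F t p) :=
      (hw.differentiable (by simp) _).hasFDerivAt
    have d1 : HasDerivAt (fun s => w (s, F s p)) (fderiv ℝ w (t, F t p) (1, meanCurv (F t) p)) t :=
      HasFDerivAt.comp_hasDerivAt (f := fun s => (s, F s p)) t hwd
        ((hasDerivAt_id' t).prodMk (h.flow t ht p))
    have d2 : HasDerivAt (fun s => w (s, F s p)) 0 t :=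
      (hasDerivAt_const t (0 : ℝ)).congr_of_eventuallyEq
        ((Continuous.tendsto' (f := fun s : ℝ => (s, p)) (by fun_prop) _ _ rfl).eventually hz'')
    have d3 : HasDerivAt (fun s => w (s, F t p)) (fderiv ℝ w (t, F t p) (1, 0)) t :=
      HasFDerivAt.comp_hasDerivAt (f := fun s => (s, F t p)) t hwd
        ((hasDerivAt_id' t).prodMk (hasDerivAt_const t _))
    have d4 : fderiv ℝ (fun y => w (t, y)) (F t p) =
        (fderiv ℝ w (t, F t p)).comp (ContinuousLinearMap.inr ℝ ℝ R3) :=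
      (hwd.comp (F t p) (hasFDerivAt_prodMk_right t (F t p))).fderiv
    have d5 := d1.unique d2
    rw [d3.deriv, hH, inner_gradient, d4, eq_neg_iff_add_eq_zero, ← d5,
      ContinuousLinearMap.comp_apply, ← map_add]
    simp

theorem IsSmoothMCF.isClosedFlow [ConnectedSpace N] (h : IsSmoothMCF F T) :
    IsClosedFlow (fun t => range (F t)) 0 T where
  mcf := h.isMCF
  bdd := by
    obtain ⟨R, hR⟩ := h.bounded
    refine ⟨R, fun t ht => ?_⟩
    rintro _ ⟨p, rfl⟩
    simpa using hR t ⟨ht.1.le, ht.2⟩ p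
  conn := fun t ht => isConnected_range (h.continuous ⟨ht.1.le, ht.2⟩)

/-- a surface which solves the shrinker equation is a self-shrinker -/
theorem isShrinker_of {S : Set E3} (hS : IsSurf S) (h : ∀ x ∈ S, relV S 0 1 x = 0) :
    IsShrinker S where
  closed := hS.1
  param := by
    intro x hx
    obtain ⟨J, pr, g, U, hxU, C, -⟩ := Chart.exists_chart_tangent hS hx
    have hf : ContDiff ℝ ∞ (Chart.gr (nu S x) J g) := Chart.contDiff_gr C.smooth
    have hfx : Chart.gr (nu S x) J g (pr x) = x := C.gr_pr hx hxU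
    have hL : Function.Injective (fderiv ℝ (Chart.gr (nu S x) J g) (pr x)) := by
      rw [(Chart.hasFDerivAt_gr (C.smooth.differentiable (by simp) _)).fderiv]
      refine Function.LeftInverse.injective (g := pr) fun v => ?_
      simp [C.frame.pr_J, C.frame.pr_n]
    have ht : Tendsto (Chart.gr (nu S x) J g) (𝓝 (pr x)) (𝓝 x) := hf.continuous.tendsto' _ _ hfx
    have hmem : ∀ᶠ v in 𝓝 (pr x), Chart.gr (nu S x) J g v ∈ S :=
      (ht.eventually (C.isOpen.mem_nhds hxU)).mono fun v hv => C.gr_mem hv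
    refine ⟨Chart.gr (nu S x) J g, pr x, hf, hfx, hL, ?_, ?_⟩
    · refine le_antisymm (tendsto_nhdsWithin_iff.2 ⟨ht, hmem⟩) ?_
      intro A hA
      have h1 : ∀ᶠ y in 𝓝 x, Chart.gr (nu S x) J g (pr y) ∈ A :=
        (pr.continuous.tendsto x).eventually hA
      filter_upwards [self_mem_nhdsWithin, mem_nhdsWithin_of_mem_nhds h1,
        mem_nhdsWithin_of_mem_nhds (C.isOpen.mem_nhds hxU)] with y hy1 hy2 hy3
      rwa [C.gr_pr hy1 hy3] at hy2
    · have he := hS.isEqn hx
      obtain ⟨h1, h2⟩ := level_meanCurv (w := eqn S x) (hf.of_le two_le_inf).contDiffAt hL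
        he.two.contDiffAt (by rw [hfx]; exact he.2.1) (by
          filter_upwards [hmem, ht.eventually he.2.2] with v hv1 hv2
          exact hv2.1 hv1)
      rw [hfx] at h1 h2
      have hn1 := hS.norm_nu hx
      have hn0 : nu S x ≠ 0 := by
        intro h0; rw [h0, norm_zero] at hn1; exact zero_ne_one hn1
      have h3 : (fderiv ℝ (Chart.gr (nu S x) J g) (pr x)).rangeᗮ = ℝ ∙ nu S x := by
        rw [range_eq_orth hL hn0 h1, Submodule.orthogonal_orthogonal]
      have h4 : (fderiv ℝ (Chart.gr (nu S x) J g) (pr x)).rangeᗮ.starProjection x =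
          ⟪x, nu S x⟫ • nu S x := by
        refine Submodule.eq_starProjection_of_mem_of_inner_eq_zero ?_ ?_
        · rw [h3]; exact Submodule.smul_mem _ _ (Submodule.mem_span_singleton_self _)
        · intro y hy
          rw [h3, Submodule.mem_span_singleton] at hy
          obtain ⟨c, rfl⟩ := hy
          simp [inner_sub_left, inner_smul_left, inner_smul_right, hn1]
      have h5 := h x hx
      rw [← h2, h4, smul_smul]
      simpa [relV, Hv, nu, sh] using h5

end Vale.Agent.P218FS
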