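import Vale.Agent.P218FS.Final
import Vale.Agent.P218FT.Huisken3
import Vale.Agent.P218FT.EVMain

/-! The final statement from the local Gauss-Bonnet estimate and the core. -/

namespace Vale.Agent.P218FS

open Vale.Agent.P218FT

universe u

theorem huisken : HuiskenStmt := Hu.huisken_proof fv_proof cont_proof ev_proof

theorem ratio : RatioStmt := Hu.ratio_proof fv_proof cont_proof ev_proof

theorem final_of_core (hG : LGBFlowStmt) (hC : CoreStmt) : FinalStmt.{u} :=
  final_of ratio hG hC huisken Hu.dens_proof

end Vale.Agent.P218FS
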