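import Vale.Agent.P218FS.Jet
import Mathlib.Geometry.Manifold.ContMDiff.Atlas
import Mathlib.Geometry.Manifold.ContMDiff.NormedSpace
import Mathlib.Geometry.Manifold.ContMDiff.Constructions
import Mathlib.Geometry.Manifold.MFDeriv.Atlas
import Mathlib.Geometry.Manifold.MFDeriv.FDeriv
import Mathlib.Analysis.Calculus.MeanValue
import Mathlib.Analysis.Normed.Module.FiniteDimension

/-! A smooth mean curvature flow which starts at an embedded closed surface stays embedded and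
bounded. -/

open MeasureTheory Set Filter Topology
open scoped Manifold ContDiff RealInnerProductSpace

namespace Vale.Agent.P218FS

variable {N : Type*} [TopologicalSpace N] [ChartedSpace R2 N] {F : ℝ → N → R3} {T : ℝ}

/-- the flow read in the chart at `p` -/
noncomputable def rep (F : ℝ → N → R3) (p : N) (z : ℝ × R2) : R3 :=
  F z.1 ((chartAt R2 p).symm z.2)

lemma rep_chart (p : N) (t : ℝ) {q : N} (hq : q ∈ (chartAt R2 p).source) :
    rep F p (t, chartAt R2 p q) = F t q := by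
  rw [rep, (chartAt R2 p).left_inv hq]

lemma rep_self (p : N) (t : ℝ) : rep F p (t, chartAt R2 p p) = F t p :=
  rep_chart p t (mem_chart_source R2 p)

lemma meanCurv_eq (t : ℝ) (p : N) :
    meanCurv (F t) p = meanCurvAt (fun u => rep F p (t, u)) (chartAt R2 p p) := rfl

lemma tendsto_chart_symm (p : N) : Tendsto (chartAt R2 p).symm (𝓝 (chartAt R2 p p)) (𝓝 p) :=
  (chartAt R2 p).tendsto_symm (mem_chart_source R2 p)

namespace IsSmoothMCF

lemma mono (h : IsSmoothMCF F T) {T' : ℝ} (hT : T' ≤ T) : IsSmoothMCF F T' where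
  smooth := h.smooth.mono (prod_mono (Ico_subset_Ico_right hT) Subset.rfl)
  immersion := fun t ht => h.immersion t (Ico_subset_Ico_right hT ht)
  embedding := h.embedding
  flow := fun t ht => h.flow t (Ioo_subset_Ioo_right hT ht)

lemma continuousOn (h : IsSmoothMCF F T) :
    ContinuousOn (fun q : ℝ × N => F q.1 q.2) (Ico 0 T ×ˢ univ) := h.smooth.continuousOn

lemma continuousAt (h : IsSmoothMCF F T) {t : ℝ} (ht : t ∈ Ioo 0 T) (p : N) :
    ContinuousAt (fun q : ℝ × N => F q.1 q.2) (t, p) :=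
  h.continuousOn.continuousAt (prod_mem_nhds (Ico_mem_nhds ht.1 ht.2) univ_mem)

lemma contMDiff (h : IsSmoothMCF F T) {t : ℝ} (ht : t ∈ Ico 0 T) :
    ContMDiff (𝓡 2) (𝓡 3) ∞ (F t) :=
  h.smooth.comp_contMDiff (f := fun p : N => (t, p)) (contMDiff_const.prodMk contMDiff_id)
    fun _ => ⟨ht, mem_univ _⟩

lemma continuous (h : IsSmoothMCF F T) {t : ℝ} (ht : t ∈ Ico 0 T) : Continuous (F t) :=
  (h.contMDiff ht).continuous

variable [IsManifold (𝓡 2) ∞ N]

lemma contDiffOn_rep (h : IsSmoothMCF F T) (p : N) :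
    ContDiffOn ℝ ∞ (rep F p) (Ico 0 T ×ˢ (chartAt R2 p).target) := by
  rw [← contMDiffOn_iff_contDiffOn]
  have h1 : ContMDiffOn 𝓘(ℝ, ℝ × R2) 𝓘(ℝ, ℝ) ∞ (fun z : ℝ × R2 => z.1)
      (Ico 0 T ×ˢ (chartAt R2 p).target) := contDiff_fst.contMDiff.contMDiffOn
  have h2 : ContMDiffOn 𝓘(ℝ, ℝ × R2) (𝓡 2) ∞ (fun z : ℝ × R2 => z.2)
      (Ico 0 T ×ˢ (chartAt R2 p).target) := contDiff_snd.contMDiff.contMDiffOn
  have h3 : ContMDiffOn 𝓘(ℝ, ℝ × R2) (𝓡 2) ∞ (fun z : ℝ × R2 => (chartAt R2 p).symm z.2)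
      (Ico 0 T ×ˢ (chartAt R2 p).target) :=
    (contMDiffOn_chart_symm (I := 𝓡 2) (x := p)).comp h2 fun z hz => hz.2
  exact h.smooth.comp (h1.prodMk h3) fun z hz => ⟨hz.1, mem_univ _⟩

lemma contDiffAt_slice (h : IsSmoothMCF F T) (p : N) {t : ℝ} (ht : t ∈ Ico 0 T) {u : R2}
    (hu : u ∈ (chartAt R2 p).target) : ContDiffAt ℝ ∞ (fun v => rep F p (t, v)) u := by
  have : ContDiffOn ℝ ∞ (fun v => rep F p (t, v)) (chartAt R2 p).target :=
    (h.contDiffOn_rep p).comp (contDiff_const.prodMk contDiff_id).contDiffOn fun v hv => ⟨ht, hv⟩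
  exact this.contDiffAt ((chartAt R2 p).open_target.mem_nhds hu)

lemma contDiffAt_two (h : IsSmoothMCF F T) (p : N) {t : ℝ} (ht : t ∈ Ico 0 T) :
    ContDiffAt ℝ 2 (fun v => rep F p (t, v)) (chartAt R2 p p) :=
  (h.contDiffAt_slice p ht (mem_chart_target R2 p)).of_le
    (WithTop.coe_le_coe.2 (le_top : (2 : ℕ∞) ≤ ⊤))

lemma injective_fderiv (h : IsSmoothMCF F T) (p : N) {t : ℝ} (ht : t ∈ Ico 0 T) {u : R2}
    (hu : u ∈ (chartAt R2 p).target) :
    Function.Injective (fderiv ℝ (fun v => rep F p (t, v)) u) := by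
  have h1 : MDifferentiableAt (𝓡 2) (𝓡 3) (F t) ((chartAt R2 p).symm u) :=
    (h.contMDiff ht).mdifferentiableAt (by simp)
  have : IsManifold (𝓡 2) 1 N := IsManifold.of_le (n := ∞) (by simp)
  have h2 : MDifferentiableAt (𝓡 2) (𝓡 2) (chartAt R2 p).symm u :=
    (mdifferentiable_chart (I := 𝓡 2) p).mdifferentiableAt_symm hu
  have h3 := mfderiv_comp u h1 h2
  have h4 : Function.Injective (mfderiv (𝓡 2) (𝓡 2) (chartAt R2 p).symm u) :=
    (mdifferentiable_chart (I := 𝓡 2) p).symm.mfderiv_injective hu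
  rw [← mfderiv_eq_fderiv]
  change Function.Injective (mfderiv (𝓡 2) (𝓡 3) (F t ∘ (chartAt R2 p).symm) u)
  rw [h3]
  exact (h.immersion t ht _).comp h4

lemma continuousOn_fderiv (h : IsSmoothMCF F T) (p : N) :
    ContinuousOn (fun z : ℝ × R2 => fderiv ℝ (fun v => rep F p (z.1, v)) z.2)
      (Ico 0 T ×ˢ (chartAt R2 p).target) := by
  have hu : UniqueDiffOn ℝ (Ico 0 T ×ˢ (chartAt R2 p).target) :=
    (uniqueDiffOn_Ico 0 T).prod (chartAt R2 p).open_target.uniqueDiffOn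
  have h1 := (h.contDiffOn_rep p).continuousOn_fderivWithin hu (by simp)
  refine (h1.clm_comp (continuousOn_const (c := ContinuousLinearMap.inr ℝ ℝ R2))).congr ?_
  intro z hz
  have h2 := ((h.contDiffOn_rep p).differentiableOn (by simp) z hz).hasFDerivWithinAt
  have h3 : HasFDerivWithinAt (fun v : R2 => (z.1, v)) (ContinuousLinearMap.inr ℝ ℝ R2)
      (chartAt R2 p).target z.2 := (hasFDerivAt_prodMk_right z.1 z.2).hasFDerivWithinAt
  have h4 := HasFDerivWithinAt.comp z.2 (g := rep F p) (f := fun v : R2 => (z.1, v)) h2 h3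
    fun v hv => mem_prod.2 ⟨hz.1, hv⟩
  exact (h4.hasFDerivAt ((chartAt R2 p).open_target.mem_nhds hz.2)).fderiv

/-- uniform local injectivity -/
lemma loc_inj (h : IsSmoothMCF F T) (p : N) {t : ℝ} (ht : t ∈ Ico 0 T) :
    ∀ᶠ z : (N × N) × ℝ in 𝓝 ((p, p), t),
      z.2 ∈ Ico 0 T → F z.2 z.1.1 = F z.2 z.1.2 → z.1.1 = z.1.2 := by
  set e := chartAt R2 p with he
  set L := fderiv ℝ (fun v => rep F p (t, v)) (e p) with hL
  obtain ⟨K, hK0, hK⟩ := (L : R2 →ₗ[ℝ] R3).exists_antilipschitzWith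
    (LinearMap.ker_eq_bot.2 (h.injective_fderiv p ht (mem_chart_target R2 p)))
  have hKpos : (0 : ℝ) < K := hK0
  have hc := h.continuousOn_fderiv p (t, e p) ⟨ht, mem_chart_target R2 p⟩
  have h1 : ∀ᶠ z : ℝ × R2 in 𝓝 (t, e p), z.2 ∈ e.target ∧ (z ∈ Ico 0 T ×ˢ e.target →
      ‖fderiv ℝ (fun v => rep F p (z.1, v)) z.2 - L‖ ≤ (2 * K : ℝ)⁻¹) := by
    refine (continuousAt_snd.eventually (e.open_target.mem_nhds (mem_chart_target R2 p))).and ?_
    have := hc.eventually (Metric.closedBall_mem_nhds L (by positivity : (0 : ℝ) < (2 * K : ℝ)⁻¹))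
    rw [eventually_nhdsWithin_iff] at this
    simpa [dist_eq_norm] using this
  obtain ⟨r, hr, hb⟩ := Metric.eventually_nhds_iff_ball.1 h1
  rw [← ball_prod_same] at hb
  have h2 : ∀ᶠ q in 𝓝 p, q ∈ e.source ∧ e q ∈ Metric.ball (e p) r :=
    Eventually.and (e.open_source.mem_nhds (mem_chart_source R2 p))
      ((e.continuousAt (mem_chart_source R2 p)).eventually (Metric.ball_mem_nhds _ hr))
  have h3 : ∀ᶠ z : (N × N) × ℝ in 𝓝 ((p, p), t), z.1.1 ∈ e.source ∧ e z.1.1 ∈ Metric.ball (e p) r :=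
    (show ContinuousAt (fun z : (N × N) × ℝ => z.1.1) ((p, p), t) by fun_prop).eventually h2
  have h4 : ∀ᶠ z : (N × N) × ℝ in 𝓝 ((p, p), t), z.1.2 ∈ e.source ∧ e z.1.2 ∈ Metric.ball (e p) r :=
    (show ContinuousAt (fun z : (N × N) × ℝ => z.1.2) ((p, p), t) by fun_prop).eventually h2
  have h5 : ∀ᶠ z : (N × N) × ℝ in 𝓝 ((p, p), t), z.2 ∈ Metric.ball t r :=
    continuous_snd.continuousAt.eventually (Metric.ball_mem_nhds _ hr)
  filter_upwards [h3, h4, h5] with z hz1 hz2 hz3 hzT hzF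
  have h6 := (convex_ball (e p) r).norm_image_sub_le_of_norm_hasFDerivWithin_le'
    (f := fun v => rep F p (z.2, v)) (f' := fun u => fderiv ℝ (fun v => rep F p (z.2, v)) u)
    (φ := L) (C := (2 * K : ℝ)⁻¹)
    (fun u hu => ((h.contDiffAt_slice p hzT (hb (z.2, u) ⟨hz3, hu⟩).1).differentiableAt
      (by simp)).hasFDerivAt.hasFDerivWithinAt)
    (fun u hu => (hb (z.2, u) ⟨hz3, hu⟩).2 ⟨hzT, (hb (z.2, u) ⟨hz3, hu⟩).1⟩) hz1.2 hz2.2
  simp only [he] at h6
  rw [rep_chart p _ hz1.1, rep_chart p _ hz2.1, hzF, sub_self, zero_sub, norm_neg] at h6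
  have h7 := hK.le_mul_dist (e z.1.2) (e z.1.1)
  rw [dist_eq_norm, dist_eq_norm, ← map_sub] at h7
  have h8 : ‖e z.1.2 - e z.1.1‖ ≤ 0 := by
    have h9 : (K : ℝ) * ‖L (e z.1.2 - e z.1.1)‖ ≤ K * ((2 * K : ℝ)⁻¹ * ‖e z.1.2 - e z.1.1‖) :=
      mul_le_mul_of_nonneg_left h6 hKpos.le
    have h10 : (K : ℝ) * ((2 * K : ℝ)⁻¹ * ‖e z.1.2 - e z.1.1‖) = ‖e z.1.2 - e z.1.1‖ / 2 := by
      field_simp
    have h11 : ‖e z.1.2 - e z.1.1‖ ≤ K * ‖L (e z.1.2 - e z.1.1)‖ := h7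
    linarith
  exact (e.injOn hz2.1 hz1.1 (sub_eq_zero.1 (norm_le_zero_iff.1 h8))).symm

end IsSmoothMCF

/-- the derivative at a point which is a minimum among the earlier times is not positive -/
lemma deriv_nonpos_of_min {ψ : ℝ → ℝ} {c t : ℝ} (ht : 0 < t) (hd : HasDerivAt ψ c t)
    (hmin : ∀ s ∈ Icc 0 t, ψ t ≤ ψ s) : c ≤ 0 := by
  have h1 := hd.hasDerivWithinAt (s := Iio t)
  rw [hasDerivWithinAt_iff_tendsto_slope' (by simp)] at h1
  refine le_of_tendsto h1 ?_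
  filter_upwards [Ioo_mem_nhdsLT ht] with s hs
  rw [slope_def_field]
  exact div_nonpos_of_nonneg_of_nonpos (sub_nonneg.2 (hmin s ⟨hs.1.le, hs.2.le⟩))
    (sub_nonpos.2 hs.2.le)

namespace IsSmoothMCF

variable [IsManifold (𝓡 2) ∞ N] [CompactSpace N]

/-- **Embeddedness is preserved.** -/
theorem injective [T2Space N] (h : IsSmoothMCF F T) {T' : ℝ} (hT' : T' ∈ Ico 0 T) :
    Function.Injective (F T') := by
  have hsub : Icc 0 T' ⊆ Ico 0 T := Icc_subset_Ico_right hT'.2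
  set V : Set (N × N) := {x | ∀ t ∈ Icc 0 T', t ∈ Ico 0 T → F t x.1 = F t x.2 → x.1 = x.2} with hV
  have h1 : diagonal N ⊆ interior V := by
    rintro ⟨p, q⟩ hpq
    obtain rfl : p = q := hpq
    rw [mem_interior_iff_mem_nhds]
    exact isCompact_Icc.eventually_forall_of_forall_eventually fun t ht => h.loc_inj p (hsub ht)
  obtain ⟨U, hUo, hUd, hUV⟩ := normal_exists_closure_subset isClosed_diagonal isOpen_interior h1
  have hUV' : closure U ⊆ V := hUV.trans interior_subset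
  intro q₀ q₀' hq
  by_contra hne
  have hq₀ : (q₀, q₀') ∉ U := fun hh =>
    hne (hUV' (subset_closure hh) T' ⟨hT'.1, le_rfl⟩ hT' hq)
  set φ : ℝ × N × N → ℝ := fun z => ‖F z.1 z.2.1 - F z.1 z.2.2‖ ^ 2 with hφ
  have hφc : ContinuousOn φ (Icc 0 T' ×ˢ univ) := by
    have a1 : ContinuousOn (fun z : ℝ × N × N => F z.1 z.2.1) (Icc 0 T' ×ˢ univ) :=
      h.continuousOn.comp (f := fun z : ℝ × N × N => (z.1, z.2.1)) (by fun_prop)
        fun z hz => ⟨hsub hz.1, mem_univ _⟩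
    have a2 : ContinuousOn (fun z : ℝ × N × N => F z.1 z.2.2) (Icc 0 T' ×ˢ univ) :=
      h.continuousOn.comp (f := fun z : ℝ × N × N => (z.1, z.2.2)) (by fun_prop)
        fun z hz => ⟨hsub hz.1, mem_univ _⟩
    exact (a1.sub a2).norm.pow 2
  have hK : IsCompact (Icc 0 T' ×ˢ Uᶜ) := isCompact_Icc.prod hUo.isClosed_compl.isCompact
  set A : Set (ℝ × N × N) := Icc 0 T' ×ˢ Uᶜ ∩ {z | z.1 = 0 ∨ z.2 ∈ closure U} with hA
  have hAc : IsCompact A := hK.inter_right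
    ((isClosed_eq continuous_fst continuous_const).union (isClosed_closure.preimage continuous_snd))
  have hApos : ∀ z ∈ A, 0 < φ z := by
    rintro ⟨t, q, q'⟩ ⟨⟨ht, hU⟩, hz⟩
    have hne' : q ≠ q' := fun hh => hU (hUd hh)
    have : F t q ≠ F t q' := by
      rcases hz with hz | hz
      · obtain rfl : t = 0 := hz
        exact fun hh => hne' (h.embedding hh)
      · exact fun hh => hne' (hUV' hz t ht (hsub ht) hh)
    exact pow_pos (norm_pos_iff.2 (sub_ne_zero.2 this)) 2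
  obtain ⟨m, hm0, hm⟩ := hAc.exists_forall_le'
    (hφc.mono fun z hz => ⟨hz.1.1, mem_univ _⟩) hApos
  have hT1 : 0 < T' + 1 := by linarith [hT'.1]
  set ε : ℝ := m / (T' + 1) with hε
  have hε0 : 0 < ε := div_pos hm0 hT1
  obtain ⟨⟨t, q, q'⟩, hz, hmin⟩ := hK.exists_isMinOn (f := fun z => φ z + ε * z.1)
    ⟨(T', q₀, q₀'), ⟨hT'.1, le_rfl⟩, hq₀⟩
    ((hφc.mono fun z hz => ⟨hz.1, mem_univ _⟩).add (by fun_prop))
  have hlt : φ (t, q, q') + ε * t < m := by
    have a1 : φ (t, q, q') + ε * t ≤ φ (T', q₀, q₀') + ε * T' :=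
      hmin (a := (T', q₀, q₀')) ⟨⟨hT'.1, le_rfl⟩, hq₀⟩
    have a2 : φ (T', q₀, q₀') = 0 := by simp [hφ, hq]
    have a3 : ε * (T' + 1) = m := by rw [hε]; field_simp
    nlinarith
  have hnA : (t, q, q') ∉ A := fun hh => by
    have := hm _ hh
    nlinarith [mul_nonneg hε0.le hz.1.1]
  have ht0 : 0 < t := lt_of_le_of_ne hz.1.1 fun hh => hnA ⟨hz, Or.inl hh.symm⟩
  have hcl : (q, q') ∉ closure U := fun hh => hnA ⟨hz, Or.inr hh⟩
  have htT : t ∈ Ico 0 T := hsub hz.1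
  have hloc : IsLocalMin (fun z : R2 × R2 => ‖rep F q (t, z.1) - rep F q' (t, z.2)‖ ^ 2)
      (chartAt R2 q q, chartAt R2 q' q') := by
    have a1 : Tendsto (fun z : R2 × R2 => ((chartAt R2 q).symm z.1, (chartAt R2 q').symm z.2))
        (𝓝 (chartAt R2 q q, chartAt R2 q' q')) (𝓝 (q, q')) :=
      ((tendsto_chart_symm q).comp (continuous_fst.tendsto' _ _ rfl)).prodMk_nhds
        ((tendsto_chart_symm q').comp (continuous_snd.tendsto' _ _ rfl))
    filter_upwards [a1.eventually (isClosed_closure.isOpen_compl.mem_nhds hcl)] with z hz'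
    have a2 : φ (t, q, q') + ε * t ≤
        φ (t, (chartAt R2 q).symm z.1, (chartAt R2 q').symm z.2) + ε * t :=
      hmin (a := (t, (chartAt R2 q).symm z.1, (chartAt R2 q').symm z.2))
        ⟨hz.1, fun hh => hz' (subset_closure hh)⟩
    simp only [rep_self]
    exact le_of_add_le_add_right a2
  have h2 := two_point (h.contDiffAt_two q htT) (h.contDiffAt_two q' htT)
    (h.injective_fderiv q htT (mem_chart_target R2 q))
    (h.injective_fderiv q' htT (mem_chart_target R2 q')) hloc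
  simp only [rep_self, ← meanCurv_eq] at h2
  have h3 := (((h.flow t ⟨ht0, htT.2⟩ q).fun_sub (h.flow t ⟨ht0, htT.2⟩ q')).norm_sq).fun_add
    ((hasDerivAt_id' t).const_mul ε)
  have h4 := deriv_nonpos_of_min ht0 h3 fun s hs =>
    hmin (a := (s, q, q')) ⟨⟨hs.1, hs.2.trans hz.1.2⟩, hz.2⟩
  linarith

/-- the flow stays in a ball -/
theorem bounded (h : IsSmoothMCF F T) : ∃ R : ℝ, ∀ t ∈ Ico 0 T, ∀ p, ‖F t p‖ ≤ R := by
  rcases isEmpty_or_nonempty N with hN | ⟨⟨p₀⟩⟩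
  · exact ⟨0, fun t _ p => hN.elim p⟩
  by_cases hT : T ≤ 0
  · exact ⟨0, fun t ht => absurd (ht.1.trans_lt ht.2) hT.not_gt⟩
  have h0 : (0 : ℝ) ∈ Ico 0 T := ⟨le_rfl, not_le.1 hT⟩
  obtain ⟨R, hR⟩ := isCompact_univ.exists_bound_of_continuousOn (h.continuous h0).continuousOn
  refine ⟨R, fun T' hT' p => ?_⟩
  have hsub : Icc 0 T' ⊆ Ico 0 T := Icc_subset_Ico_right hT'.2
  obtain ⟨⟨t, q⟩, hz, hmax⟩ := (isCompact_Icc.prod isCompact_univ).exists_isMaxOn
    (f := fun z : ℝ × N => ‖F z.1 z.2‖ ^ 2) ⟨(T', p), ⟨hT'.1, le_rfl⟩, mem_univ _⟩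
    ((h.continuousOn.mono (prod_mono hsub Subset.rfl)).norm.pow 2)
  have h1 : ‖F T' p‖ ≤ ‖F t q‖ :=
    le_of_sq_le_sq (hmax (a := (T', p)) ⟨⟨hT'.1, le_rfl⟩, mem_univ _⟩) (norm_nonneg _)
  refine h1.trans ?_
  by_cases hd : F t q = 0
  · rw [hd, norm_zero]
    exact (norm_nonneg _).trans (hR p₀ (mem_univ _))
  rcases eq_or_lt_of_le hz.1.1 with ht0 | ht0
  · obtain rfl : 0 = t := ht0
    exact hR q (mem_univ _)
  exfalso
  have htT : t ∈ Ico 0 T := hsub hz.1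
  have hloc : IsLocalMax (fun z : R2 => ‖rep F q (t, z)‖ ^ 2) (chartAt R2 q q) := by
    refine Eventually.of_forall fun z => ?_
    simp only [rep_self]
    exact hmax (a := (t, (chartAt R2 q).symm z)) ⟨hz.1, mem_univ _⟩
  have h2 := far_point (h.contDiffAt_two q htT)
    (h.injective_fderiv q htT (mem_chart_target R2 q)) hloc (by simpa only [rep_self] using hd)
  simp only [rep_self, ← meanCurv_eq] at h2
  have h3 := ((h.flow t ⟨ht0, htT.2⟩ q).norm_sq).fun_neg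
  have h4 := deriv_nonpos_of_min ht0 h3 fun s hs =>
    neg_le_neg (hmax (a := (s, q)) ⟨⟨hs.1, hs.2.trans hz.1.2⟩, mem_univ _⟩)
  linarith

end IsSmoothMCF

end Vale.Agent.P218FS
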