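import Vale.Agent.P218FS.Bridge
import Vale.Agent.P218FT.Scale
import Vale.Agent.P218FT.ProjInt
import Mathlib.MeasureTheory.Integral.RieszMarkovKakutani.Real

/-! The final statement from the core. -/

open MeasureTheory Set Filter Topology Metric
open scoped Manifold ContDiff RealInnerProductSpace

namespace Vale.Agent.P218FS

open Vale.Agent.P218FT

lemma isMCF_mono {M : ℝ → Set E3} {I J : Set ℝ} (h : IsMCF M I) (hJ : IsOpen J) (hJI : J ⊆ I) :
    IsMCF M J :=
  ⟨hJ, fun t ht => h.closed t (hJI ht), fun t ht => h.loc t (hJI ht)⟩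

lemma shrinkerFlow_eq (S : Set E3) {s : ℝ} (hs : s < 0) :
    shrinkerFlow S s = area (scaleSet (√(-s)) 0 S) := by
  have h0 : √(-s) ≠ 0 := (Real.sqrt_pos.2 (neg_pos.2 hs)).ne'
  rw [shrinkerFlow, area]
  congr 1
  ext y
  simp only [mem_image, scaleSet, mem_ofPred_eq, zero_add]
  constructor
  · rintro ⟨x, hx, rfl⟩
    rwa [inv_smul_smul₀ h0]
  · intro hy
    exact ⟨_, hy, smul_inv_smul₀ h0 y⟩

lemma scaleSet_one (S : Set E3) : scaleSet (√(-(-1 : ℝ))) 0 S = S := by
  ext y; simp [scaleSet]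

/-- Radon measures are determined by the integrals of test functions -/
lemma WeakTendsto.unique {ι : Type*} {l : Filter ι} [l.NeBot] {u : ι → Measure R3}
    {ν ν' : Measure R3} [IsLocallyFiniteMeasure ν] [IsLocallyFiniteMeasure ν']
    (h : WeakTendsto l u ν) (h' : WeakTendsto l u ν') : ν = ν' :=
  Measure.ext_of_integral_eq_on_compactlySupported fun f =>
    tendsto_nhds_unique (h f f.continuous f.hasCompactSupport)
      (h' f f.continuous f.hasCompactSupport)

lemma tendsto_time (t₀ s : ℝ) : Tendsto (fun lam : ℝ => t₀ + s / lam ^ 2) atTop (𝓝 t₀) := by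
  have : Tendsto (fun lam : ℝ => s / lam ^ 2) atTop (𝓝 0) :=
    tendsto_const_nhds.div_atTop (tendsto_pow_atTop two_ne_zero)
  simpa using this.const_add t₀

/-- if the flow reaches `(x₀, b)` the rescaled flows have a definite mass near the origin -/
lemma mass_of_reached (hH : HuiskenStmt) (hD : DensStmt) {D : ℝ} {M : ℝ → Set E3} {a b : ℝ}
    (hab : a < b) (hM : IsMCF M (Ioo a b)) (hA : ∀ t ∈ Ioo a b, AreaRatio D (M t)) {x₀ : E3}
    (hr : ∀ δ > 0, ∃ t ∈ Ioo (b - δ) b, ∃ x ∈ M t, ‖x - x₀‖ < δ) :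
    ∃ φ : E3 → ℝ, Continuous φ ∧ HasCompactSupport φ ∧
      ∀ᶠ lam : ℝ in atTop, 1 / 2 ≤ ∫ x, φ x ∂(area (scaleFlow lam x₀ b M (-1))) := by
  obtain ⟨C₀, -, hg⟩ := gauss_proof
  obtain ⟨ρ, hρ, htail⟩ := (hg (max D 0) (le_max_right _ _)).2 (1 / 2) (by norm_num)
  let φ : ContDiffBump (0 : E3) := ⟨ρ + 1, ρ + 2, by linarith, by linarith⟩
  refine ⟨φ, φ.continuous, φ.hasCompactSupport, ?_⟩
  filter_upwards [(tendsto_time b (-1)).eventually (lt_mem_nhds hab), eventually_gt_atTop 0]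
    with lam hl1 hl
  have hl2 : 0 < lam ^ 2 := by positivity
  obtain ⟨t, ht, x, hx, hxx⟩ := hr (min (1 / (2 * lam ^ 2)) lam⁻¹) (by positivity)
  set s : ℝ := lam ^ 2 * (t - b) with hs
  have hs0 : s < 0 := mul_neg_of_pos_of_neg hl2 (sub_neg.2 ht.2)
  have hs1 : -(1 / 2) < s := by
    have h1 : -(1 / (2 * lam ^ 2)) < t - b := by
      linarith [ht.1, min_le_left (1 / (2 * lam ^ 2)) lam⁻¹]
    have h2 := mul_lt_mul_of_pos_left h1 hl2
    have h3 : lam ^ 2 * -(1 / (2 * lam ^ 2)) = -(1 / 2) := by field_simp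
    linarith
  set r : ℝ := √(s + 1) with hr'
  have hr2 : r ^ 2 = s + 1 := Real.sq_sqrt (by linarith)
  have hr0 : 0 < r := Real.sqrt_pos.2 (by linarith)
  have hr1 : r ≤ 1 := by nlinarith
  set y : E3 := lam • (x - x₀) with hy
  have hy1 : ‖y‖ ≤ 1 := by
    rw [hy, norm_smul, Real.norm_eq_abs, abs_of_pos hl]
    have := mul_le_mul_of_nonneg_left (hxx.le.trans (min_le_right _ _)) hl.le
    rwa [mul_inv_cancel₀ hl.ne'] at this
  have e1 : x₀ + lam⁻¹ • y = x := by rw [hy, inv_smul_smul₀ hl.ne']; abel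
  have e2 : b + s / lam ^ 2 = t := by rw [hs]; field_simp; ring
  have e3 : t - (r / lam) ^ 2 = b + -1 / lam ^ 2 := by
    rw [div_pow, hr2, ← e2]; field_simp; ring
  have h1 : 1 ≤ dens M x t (r / lam) :=
    PI.one_le_dens hH hD hM hA (by positivity)
      (fun u hu => ⟨by rw [e3] at hu; exact hl1.trans_le hu.1, hu.2.trans_lt ht.2⟩) hx
  have h2 := dens_scale hl x₀ b M y s r
  rw [e1, e2, dens, show s - r ^ 2 = -1 by rw [hr2]; ring] at h2
  have hmem : b + -1 / lam ^ 2 ∈ Ioo a b :=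
    ⟨hl1, by have : 0 < 1 / lam ^ 2 := by positivity
             rw [neg_div]; linarith⟩
  have hA' : AreaRatio D (scaleFlow lam x₀ b M (-1)) := (hA _ hmem).scale hl x₀
  have := hA'.locFin
  have h3 := htail _ (hA'.mono (le_max_left D 0)) y r hr0
  have hi := integrable_gk hA' y (show 0 < r ^ 2 by positivity)
  have hφi : Integrable φ (area (scaleFlow lam x₀ b M (-1))) :=
    φ.continuous.integrable_of_hasCompactSupport φ.hasCompactSupport
  have h4 : ∫ z in ball y (ρ * r), gk (r ^ 2) (z - y) ∂(area (scaleFlow lam x₀ b M (-1))) ≤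
      ∫ z, φ z ∂(area (scaleFlow lam x₀ b M (-1))) := by
    refine le_trans (setIntegral_mono_on hi.integrableOn hφi.integrableOn measurableSet_ball
      fun z hz => ?_) (setIntegral_le_integral hφi (Eventually.of_forall fun z => φ.nonneg))
    have a1 : z ∈ closedBall (0 : E3) φ.rIn := by
      rw [mem_closedBall_zero_iff]
      have a2 : ‖z - y‖ < ρ * r := by rwa [mem_ball, dist_eq_norm] at hz
      have a3 : ‖z‖ ≤ ‖z - y‖ + ‖y‖ := by simpa using norm_add_le (z - y) y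
      have a4 : ρ * r ≤ ρ := by nlinarith
      change ‖z‖ ≤ ρ + 1
      linarith
    rw [φ.one_of_mem_closedBall a1]
    refine (gk_le (by positivity) _).trans (inv_le_one_of_one_le₀ ?_)
    nlinarith [Real.pi_gt_three]
  have h5 := integral_add_compl (measurableSet_ball (x := y) (ε := ρ * r)) hi
  rw [gA] at h2
  linarith

universe u

/-- **The final statement follows from the core.** -/
theorem final_of (hR : RatioStmt) (hG : LGBFlowStmt) (hC : CoreStmt) (hH : HuiskenStmt)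
    (hD : DensStmt) : FinalStmt.{u} := by
  intro N _ _ _ _ _ _ F T h μ hμ x₀ t₀ ht₀ hT
  have hcl := (h.mono hT).isClosedFlow
  have ha : t₀ / 2 ∈ Ioo 0 t₀ := ⟨by linarith, by linarith⟩
  obtain ⟨D, hD'⟩ := hR _ _ _ hcl _ ha
  obtain ⟨G, hG'⟩ := hG _ _ _ hcl _ ha
  have hM : IsMCF (fun t => range (F t)) (Ioo (t₀ / 2) t₀) :=
    isMCF_mono hcl.mcf isOpen_Ioo (Ioo_subset_Ioo_left ha.1.le)
  have hcl' : IsClosedFlow (fun t => range (F t)) (t₀ / 2) t₀ :=
    ⟨hM, hcl.bdd.imp fun R hR t ht => hR t (Ioo_subset_Ioo_left ha.1.le ht),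
      fun t ht => hcl.conn t (Ioo_subset_Ioo_left ha.1.le ht)⟩
  obtain ⟨S, hS, hsh, hconv⟩ := hC D G _ _ _ ha.2 hcl' ⟨hM, hD', hG'⟩ x₀
  have hw : ∀ s < 0, WeakTendsto atTop (fun lam : ℝ => rescaled μ x₀ t₀ lam s)
      (shrinkerFlow S s) := by
    intro s hs φ hφ hφc
    rw [shrinkerFlow_eq S hs]
    refine (hconv s hs φ hφ hφc).congr' ?_
    filter_upwards [(tendsto_time t₀ s).eventually (lt_mem_nhds ht₀), eventually_gt_atTop 0]
      with lam hl1 hl
    have h1 : t₀ + s / lam ^ 2 < T := by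
      have : s / lam ^ 2 < 0 := div_neg_of_neg_of_pos hs (by positivity)
      linarith
    rw [rescaled, hμ _ ⟨hl1.le, h1⟩, scaleFlow, area_scale hl]
    rfl
  have hlf : ∀ s < 0, IsLocallyFiniteMeasure (shrinkerFlow S s) := by
    intro s hs
    rw [shrinkerFlow_eq S hs]
    exact Chart.locFin_proof _ (hS.scale (Real.sqrt_pos.2 (neg_pos.2 hs)).ne' 0)
  have hc1 := hconv (-1) (by norm_num)
  rw [scaleSet_one] at hc1
  refine ⟨S, isShrinker_of hS hsh, ⟨?_, ?_⟩, ⟨hlf, fun i => (i : ℝ), tendsto_natCast_atTop_atTop,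
    fun s hs φ hφ hφc => (hw s hs φ hφ hφc).comp tendsto_natCast_atTop_atTop⟩, hw, ?_⟩
  · rintro ⟨x, hx⟩
    by_contra hn
    have h1 : ∃ δ > 0, ∀ t ∈ Ioo (t₀ - δ) t₀, ∀ p, δ ≤ ‖F t p - x₀‖ := by
      by_contra h2
      push Not at h2
      choose t ht p hp using fun n : ℕ => h2 (1 / ((n : ℝ) + 1)) (by positivity)
      refine hn ⟨t, p, fun n => (ht n).2, ?_, ?_⟩
      · refine tendsto_of_tendsto_of_tendsto_of_le_of_le
          (g := fun n : ℕ => t₀ - 1 / ((n : ℝ) + 1)) (h := fun _ => t₀) ?_ tendsto_const_nhds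
          (fun n => (ht n).1.le) fun n => (ht n).2.le
        simpa using tendsto_one_div_add_atTop_nhds_zero_nat.const_sub t₀
      · rw [tendsto_iff_norm_sub_tendsto_zero]
        exact squeeze_zero (fun n => norm_nonneg _) (fun n => (hp n).le)
          tendsto_one_div_add_atTop_nhds_zero_nat
    obtain ⟨δ, hδ, h1⟩ := h1
    obtain ⟨r, hr, hr0⟩ := ((Chart.lower_proof S hS x hx).and self_mem_nhdsWithin).exists
    have hr0' : 0 < r := hr0
    let φ : ContDiffBump x := ⟨r / 2, r, half_pos hr0', half_lt_self hr0'⟩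
    have := Chart.locFin_proof S hS
    have h2 : 0 < ∫ y, φ y ∂(area S) := by
      rw [integral_pos_iff_support_of_nonneg (fun y => φ.nonneg)
        (φ.continuous.integrable_of_hasCompactSupport φ.hasCompactSupport), φ.support_eq]
      exact lt_of_lt_of_le (ENNReal.ofReal_pos.2 (by positivity)) hr
    have h3 : ∀ᶠ lam : ℝ in atTop,
        ∫ y, φ y ∂(area (scaleFlow lam x₀ t₀ (fun t => range (F t)) (-1))) = 0 := by
      filter_upwards [(tendsto_time t₀ (-1)).eventually (lt_mem_nhds (sub_lt_self t₀ hδ)),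
        (tendsto_time t₀ (-1)).eventually (lt_mem_nhds ha.2),
        eventually_gt_atTop 0, eventually_ge_atTop ((‖x‖ + r) / δ)] with lam hl1 hl1' hl hl2
      have hlt : t₀ + -1 / lam ^ 2 < t₀ := by
        have : 0 < 1 / lam ^ 2 := by positivity
        rw [neg_div]; linarith
      refine setIntegral_eq_zero_of_forall_eq_zero fun y hy => φ.zero_of_le_dist ?_
      obtain ⟨p, hp⟩ := hy
      have a1 := h1 _ ⟨hl1, hlt⟩ p
      rw [hp, add_sub_cancel_left, norm_smul, norm_inv, Real.norm_eq_abs, abs_of_pos hl,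
        le_inv_mul_iff₀ hl] at a1
      rw [div_le_iff₀ hδ] at hl2
      have a2 : ‖y‖ ≤ ‖y - x‖ + ‖x‖ := by simpa using norm_add_le (y - x) x
      rw [dist_eq_norm]
      change r ≤ ‖y - x‖
      linarith
    have h4 := tendsto_nhds_unique (hc1 φ φ.continuous φ.hasCompactSupport)
      (tendsto_const_nhds.congr' (h3.mono fun _ h => h.symm))
    exact h2.ne' h4
  · rintro ⟨t, p, h1, h2, h3⟩
    obtain ⟨φ, hφ, hφc, h4⟩ := mass_of_reached hH hD ha.2 hM hD' (x₀ := x₀) fun δ hδ => by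
      obtain ⟨i, hi1, hi2⟩ := ((h2.eventually (lt_mem_nhds (sub_lt_self t₀ hδ))).and
        (h3.eventually (ball_mem_nhds x₀ hδ))).exists
      exact ⟨t i, ⟨hi1, h1 i⟩, _, ⟨p i, rfl⟩, by rwa [← dist_eq_norm]⟩
    have h5 := ge_of_tendsto (hc1 φ hφ hφc) h4
    by_contra hn
    rw [not_nonempty_iff_eq_empty] at hn
    rw [hn, area, Measure.restrict_empty, integral_zero_measure] at h5
    norm_num at h5
  · rintro ν ⟨hν, lam, hlam, hc⟩ s hs
    have := hν s hs
    have := hlf s hs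
    exact (hc s hs).unique fun φ hφ hφc => (hw s hs φ hφ hφc).comp hlam

end Vale.Agent.P218FS
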