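import Vale.Agent.P218FS.Stmt
import Vale.Agent.P218FT.Defs
import Mathlib.Analysis.Calculus.DerivativeTest
import Mathlib.Analysis.Calculus.ContDiff.Operations
import Mathlib.Analysis.Calculus.LocalExtr.Basic
import Mathlib.Analysis.InnerProductSpace.Calculus
import Mathlib.Analysis.InnerProductSpace.Trace

/-! Two-jets of parametrised surfaces. -/

open MeasureTheory Set Filter Topology
open scoped ContDiff RealInnerProductSpace

namespace Vale.Agent.P218FS

open Vale.Agent.P218FT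

/-- the second derivative at a local minimum is nonnegative -/
lemma second_nonneg {ψ ψ' : ℝ → ℝ} {c : ℝ} (hmin : IsLocalMin ψ 0)
    (h1 : ∀ᶠ s in 𝓝 (0 : ℝ), HasDerivAt ψ (ψ' s) s) (h2 : HasDerivAt ψ' c 0) : 0 ≤ c := by
  by_contra hc
  push Not at hc
  have hd : deriv ψ =ᶠ[𝓝 0] ψ' := h1.mono fun s hs => hs.deriv
  have hdd : deriv (deriv ψ) 0 = c := by rw [hd.deriv_eq, h2.deriv]
  have hmax : IsLocalMax ψ 0 :=
    isLocalMax_of_deriv_deriv_neg (by rw [hdd]; exact hc) hmin.deriv_eq_zero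
      h1.self_of_nhds.continuousAt
  have hconst : ψ =ᶠ[𝓝 0] fun _ => ψ 0 := by
    filter_upwards [hmin, hmax] with s h h' using le_antisymm h' h
  have h0 : deriv ψ =ᶠ[𝓝 0] fun _ => 0 := by
    filter_upwards [hconst.eventuallyEq_nhds] with s hs
    rw [hs.deriv_eq]; simp
  rw [h0.deriv_eq] at hdd
  simp at hdd
  exact hc.ne' hdd

/-- an orthonormal frame of the plane orthogonal to a unit vector -/
lemma exists_frame {n : E3} (hn : ‖n‖ = 1) : ∃ e : Fin 2 → E3, Orthonormal ℝ e ∧
    (∀ k, ⟪e k, n⟫ = 0) ∧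
    ∀ A : E3 →L[ℝ] E3, tr ((pt n).comp (A.comp (pt n))) = ∑ k, ⟪A (e k), e k⟫ := by
  have hv : Orthonormal ℝ (({0} : Set (Fin 3)).domRestrict fun _ : Fin 3 => n) := by
    constructor
    · intro i; simpa using hn
    · intro i j hij
      exact absurd (Subsingleton.elim i j) hij
  obtain ⟨b, hb⟩ := hv.exists_orthonormalBasis_extension_of_card_eq (by simp)
  have hb0 : b 0 = n := hb 0 rfl
  have hon := b.orthonormal
  have h10 : ⟪b 1, n⟫ = 0 := by rw [← hb0]; exact hon.2 (by decide)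
  have h20 : ⟪b 2, n⟫ = 0 := by rw [← hb0]; exact hon.2 (by decide)
  have hnn : ⟪n, n⟫ = 1 := by rw [real_inner_self_eq_norm_sq, hn]; norm_num
  refine ⟨fun k => b k.succ, hon.comp _ (Fin.succ_injective 2), ?_, ?_⟩
  · intro k
    fin_cases k
    · exact h10
    · exact h20
  · intro A
    have hp : ∀ v, ⟪v, n⟫ = 0 → pt n v = v := by
      intro v hv
      have : ⟪n, v⟫ = 0 := by rw [real_inner_comm]; exact hv
      simp [pt, this]
    have hq : ∀ v z, ⟪v, n⟫ = 0 → ⟪v, pt n z⟫ = ⟪z, v⟫ := by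
      intro v z hv
      simp [pt, inner_sub_right, inner_smul_right, hv, real_inner_comm]
    have hp0 : pt n n = 0 := by simp [pt, hn]
    rw [tr, LinearMap.trace_eq_sum_inner _ b, Fin.sum_univ_three, Fin.sum_univ_two]
    simp only [ContinuousLinearMap.coe_coe, ContinuousLinearMap.comp_apply, hb0, hp0, map_zero,
      inner_zero_right, zero_add]
    rw [hp _ h10, hp _ h20, hq _ _ h10, hq _ _ h20]
    rfl

/-- the range of an injective map from the plane is the orthogonal complement of any nonzero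
normal vector -/
lemma range_eq_orth {L : R2 →L[ℝ] R3} (hL : Function.Injective L) {n : R3} (hn : n ≠ 0)
    (h : ∀ v, ⟪L v, n⟫ = 0) : L.range = (ℝ ∙ n)ᗮ := by
  apply Submodule.eq_of_le_of_finrank_eq
  · rintro _ ⟨v, rfl⟩
    rw [Submodule.mem_orthogonal_singleton_iff_inner_left]
    exact h v
  · have h1 : Module.finrank ℝ L.range = 2 := by
      rw [LinearMap.finrank_range_of_inj hL]; simp
    have h2 := Submodule.finrank_add_finrank_orthogonal (ℝ ∙ n)
    rw [finrank_span_singleton hn] at h2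
    simp only [finrank_euclideanSpace, Fintype.card_fin] at h2
    omega

lemma exists_preimage {L : R2 →L[ℝ] R3} (hL : Function.Injective L) {n : R3} (hn : n ≠ 0)
    (h : ∀ v, ⟪L v, n⟫ = 0) {e : R3} (he : ⟪e, n⟫ = 0) : ∃ a, L a = e := by
  have : e ∈ L.range := by
    rw [range_eq_orth hL hn h, Submodule.mem_orthogonal_singleton_iff_inner_left]
    exact he
  exact this

/-- an injective map from the plane has a unit normal -/
lemma exists_unit_normal {L : R2 →L[ℝ] R3} (hL : Function.Injective L) :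
    ∃ n : R3, ‖n‖ = 1 ∧ ∀ v, ⟪L v, n⟫ = 0 := by
  have h1 : Module.finrank ℝ L.range = 2 := by
    rw [LinearMap.finrank_range_of_inj hL]; simp
  have h2 := Submodule.finrank_add_finrank_orthogonal L.range
  simp only [finrank_euclideanSpace, Fintype.card_fin] at h2
  have h3 : L.rangeᗮ ≠ ⊥ := by
    intro h
    rw [h, finrank_bot] at h2
    omega
  obtain ⟨m, hm, hm0⟩ := Submodule.exists_mem_ne_zero_of_ne_bot h3
  refine ⟨‖m‖⁻¹ • m, ?_, fun v => ?_⟩
  · rw [norm_smul, norm_inv, norm_norm, inv_mul_cancel₀ (norm_ne_zero_iff.2 hm0)]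
  · rw [inner_smul_right, hm (L v) ⟨v, rfl⟩, mul_zero]

lemma r2_eq (a : R2) : a = a 0 • EuclideanSpace.single 0 1 + a 1 • EuclideanSpace.single 1 1 := by
  ext i; fin_cases i <;> simp

/-- the trace with respect to the induced metric, in an orthonormal frame -/
lemma trace_frame {f : R2 → R3} {u : R2} {a : Fin 2 → R2}
    (ha : Orthonormal ℝ fun k => fderiv ℝ f u (a k)) (B : R2 →L[ℝ] R2 →L[ℝ] R3) :
    ∑ i, ∑ j, (metric f u)⁻¹ i j • B (EuclideanSpace.single i 1) (EuclideanSpace.single j 1) =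
      ∑ k, B (a k) (a k) := by
  set A : Matrix (Fin 2) (Fin 2) ℝ := Matrix.of fun i k => a k i with hA
  have hL : ∀ k, fderiv ℝ f u (a k) = a k 0 • pd f 0 u + a k 1 • pd f 1 u := by
    intro k
    conv_lhs => rw [r2_eq (a k)]
    simp only [map_add, map_smul, pd]
  have h1 : A.transpose * metric f u * A = 1 := by
    ext k l
    have := orthonormal_iff_ite.1 ha k l
    rw [hL, hL] at this
    simp only [inner_add_left, inner_add_right, inner_smul_left, inner_smul_right,
      conj_trivial] at this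
    simp only [Matrix.mul_apply, Fin.sum_univ_two, Matrix.transpose_apply, hA, metric,
      Matrix.of_apply, Matrix.one_apply]
    rw [← this]; ring
  have h2 : A * A.transpose * metric f u = 1 := by
    have := mul_eq_one_comm.1 h1
    rwa [← Matrix.mul_assoc] at this
  have h3 : (metric f u)⁻¹ = A * A.transpose := Matrix.inv_eq_left_inv h2
  rw [h3]
  have hB : ∀ k, B (a k) (a k) =
      ∑ i, ∑ j, (a k i * a k j) • B (EuclideanSpace.single i 1) (EuclideanSpace.single j 1) := by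
    intro k
    conv_lhs => rw [r2_eq (a k)]
    simp only [map_add, map_smul, FunLike.coe_add, FunLike.coe_smul, Pi.add_apply, Pi.smul_apply,
      Fin.sum_univ_two, smul_add, smul_smul]
    module
  simp only [hB, Matrix.mul_apply, Fin.sum_univ_two, Matrix.transpose_apply, hA, Matrix.of_apply]
  module

lemma pd_pd {f : R2 → R3} {u : R2} (hf : ContDiffAt ℝ 2 f u) (i j : Fin 2) :
    pd (pd f j) i u =
      fderiv ℝ (fderiv ℝ f) u (EuclideanSpace.single i 1) (EuclideanSpace.single j 1) := by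
  have h1 : DifferentiableAt ℝ (fderiv ℝ f) u :=
    (hf.fderiv_right (m := 1) (by norm_num)).differentiableAt (by norm_num)
  have h2 : HasFDerivAt (pd f j) ((ContinuousLinearMap.apply ℝ R3
      (EuclideanSpace.single j (1 : ℝ) : R2)).comp (fderiv ℝ (fderiv ℝ f) u)) u :=
    (ContinuousLinearMap.apply ℝ R3 (EuclideanSpace.single j (1 : ℝ) : R2)).hasFDerivAt.comp u
      h1.hasFDerivAt
  rw [pd, h2.fderiv]
  rfl

/-- the normal component of the mean curvature vector -/
lemma inner_meanCurvAt {f : R2 → R3} {u : R2} (hf : ContDiffAt ℝ 2 f u) {a : Fin 2 → R2}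
    (ha : Orthonormal ℝ fun k => fderiv ℝ f u (a k)) {n : R3}
    (hn : ∀ v, ⟪fderiv ℝ f u v, n⟫ = 0) :
    ⟪meanCurvAt f u, n⟫ = ∑ k, ⟪fderiv ℝ (fderiv ℝ f) u (a k) (a k), n⟫ := by
  have hmem : n ∈ (fderiv ℝ f u).rangeᗮ := by
    rintro _ ⟨v, rfl⟩
    exact hn v
  rw [meanCurvAt, Submodule.inner_starProjection_left_eq_right,
    Submodule.starProjection_eq_self_iff.2 hmem]
  simp only [pd_pd hf]
  rw [trace_frame ha, sum_inner]

lemma meanCurvAt_eq_smul {f : R2 → R3} {u : R2} (hL : Function.Injective (fderiv ℝ f u)) {n : R3}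
    (hn1 : ‖n‖ = 1) (hn : ∀ v, ⟪fderiv ℝ f u v, n⟫ = 0) :
    meanCurvAt f u = ⟪meanCurvAt f u, n⟫ • n := by
  have hn0 : n ≠ 0 := by
    intro h; rw [h] at hn1; simp at hn1
  have hmem : meanCurvAt f u ∈ (fderiv ℝ f u).rangeᗮ := Submodule.starProjection_apply_mem _ _
  rw [range_eq_orth hL hn0 hn, Submodule.orthogonal_orthogonal, Submodule.mem_span_singleton]
    at hmem
  obtain ⟨c, hc⟩ := hmem
  rw [← hc, inner_smul_left, real_inner_self_eq_norm_sq, hn1]
  simp

/-- the two-jet of `f` along a line -/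
lemma line_jet {f : R2 → R3} {u : R2} (hf : ContDiffAt ℝ 2 f u) (a : R2) :
    (∀ᶠ s in 𝓝 (0 : ℝ), HasDerivAt (fun s : ℝ => f (u + s • a)) (fderiv ℝ f (u + s • a) a) s) ∧
    HasDerivAt (fun s : ℝ => fderiv ℝ f (u + s • a) a) (fderiv ℝ (fderiv ℝ f) u a a) 0 := by
  have hl : ∀ s : ℝ, HasDerivAt (fun s : ℝ => u + s • a) a s := fun s => by
    simpa using ((hasDerivAt_id s).smul_const a).const_add u
  have ht : Tendsto (fun s : ℝ => u + s • a) (𝓝 0) (𝓝 u) := by
    simpa using (hl 0).continuousAt.tendsto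
  constructor
  · have h1 : ∀ᶠ v in 𝓝 u, ContDiffAt ℝ 2 f v := hf.eventually (by simp)
    filter_upwards [ht.eventually h1] with s hs
    exact (hs.differentiableAt (by norm_num)).hasFDerivAt.comp_hasDerivAt s (hl s)
  · have h1 : DifferentiableAt ℝ (fderiv ℝ f) (u + (0 : ℝ) • a) := by
      simpa using (hf.fderiv_right (m := 1) (by norm_num)).differentiableAt (by norm_num)
    have h2 : HasDerivAt (fun s : ℝ => fderiv ℝ f (u + s • a))
        (fderiv ℝ (fderiv ℝ f) (u + (0 : ℝ) • a) a) 0 :=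
      h1.hasFDerivAt.comp_hasDerivAt (0 : ℝ) (hl 0)
    have h3 : HasDerivAt (fun s : ℝ => fderiv ℝ f (u + s • a) a)
        (fderiv ℝ (fderiv ℝ f) (u + (0 : ℝ) • a) a a) 0 :=
      (ContinuousLinearMap.apply ℝ R3 a).hasFDerivAt.comp_hasDerivAt (0 : ℝ) h2
    simpa using h3

lemma inner_gradient (w : E3 → ℝ) (x v : E3) : ⟪gradient w x, v⟫ = fderiv ℝ w x v := by
  simp [gradient]

lemma differentiableAt_gradient {w : E3 → ℝ} {x : E3} (hw : ContDiffAt ℝ 2 w x) :
    DifferentiableAt ℝ (gradient w) x := by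
  have h1 : DifferentiableAt ℝ (fderiv ℝ w) x :=
    (hw.fderiv_right (m := 1) (by norm_num)).differentiableAt (by norm_num)
  exact ((InnerProductSpace.toDual ℝ E3).symm.toContinuousLinearEquiv.differentiableAt).comp x h1

/-- the mean curvature vector of a parametrised piece of a level set -/
lemma level_meanCurv {f : R2 → R3} {u : R2} (hf : ContDiffAt ℝ 2 f u)
    (hL : Function.Injective (fderiv ℝ f u)) {w : E3 → ℝ} (hw : ContDiffAt ℝ 2 w (f u))
    (hg : gradient w (f u) ≠ 0) (h0 : ∀ᶠ v in 𝓝 u, w (f v) = 0) :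
    (∀ v, ⟪fderiv ℝ f u v, nuw w (f u)⟫ = 0) ∧
      tr (shw w (f u)) • nuw w (f u) = meanCurvAt f u := by
  have hgn : ‖gradient w (f u)‖ ≠ 0 := norm_ne_zero_iff.2 hg
  have hn1 : ‖nuw w (f u)‖ = 1 := by
    rw [nuw, norm_smul, norm_inv, norm_norm, inv_mul_cancel₀ hgn]
  have hwev : ∀ᶠ y in 𝓝 (f u), ContDiffAt ℝ 2 w y := hw.eventually (by simp)
  have key : ∀ a : R2, ⟪gradient w (f u), fderiv ℝ f u a⟫ = 0 ∧
      ⟪gradient w (f u), fderiv ℝ (fderiv ℝ f) u a a⟫ +
        ⟪fderiv ℝ (gradient w) (f u) (fderiv ℝ f u a), fderiv ℝ f u a⟫ = 0 := by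
    intro a
    obtain ⟨h1, h2⟩ := line_jet hf a
    have hl : Tendsto (fun s : ℝ => u + s • a) (𝓝 0) (𝓝 u) := by
      have : Continuous fun s : ℝ => u + s • a := by fun_prop
      simpa using this.tendsto 0
    have hc : Tendsto (fun s : ℝ => f (u + s • a)) (𝓝 0) (𝓝 (f u)) :=
      hf.continuousAt.tendsto.comp hl
    have hz : (fun s : ℝ => w (f (u + s • a))) =ᶠ[𝓝 0] fun _ => 0 := hl.eventually h0
    have hz' : ∀ᶠ s in 𝓝 (0 : ℝ),
        ⟪gradient w (f (u + s • a)), fderiv ℝ f (u + s • a) a⟫ = 0 := by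
      filter_upwards [h1, hc.eventually hwev, hz.eventuallyEq_nhds] with s hs hs' hs''
      have h3 := (hs'.differentiableAt (by norm_num)).hasFDerivAt.comp_hasDerivAt s hs
      have h4 : HasDerivAt (fun s : ℝ => w (f (u + s • a))) 0 s :=
        (hasDerivAt_const s (0 : ℝ)).congr_of_eventuallyEq hs''
      rw [inner_gradient]
      exact h3.unique h4
    refine ⟨by simpa using hz'.self_of_nhds, ?_⟩
    have h5 : DifferentiableAt ℝ (gradient w) (f (u + (0 : ℝ) • a)) := by
      simpa using differentiableAt_gradient hw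
    have h6 := (h5.hasFDerivAt.comp_hasDerivAt (0 : ℝ) h1.self_of_nhds).inner ℝ h2
    have h7 : HasDerivAt (fun s : ℝ =>
        ⟪gradient w (f (u + s • a)), fderiv ℝ f (u + s • a) a⟫) 0 0 :=
      (hasDerivAt_const (0 : ℝ) (0 : ℝ)).congr_of_eventuallyEq hz'
    simpa using h6.unique h7
  have hn : ∀ v, ⟪fderiv ℝ f u v, nuw w (f u)⟫ = 0 := by
    intro v
    rw [nuw, inner_smul_right, real_inner_comm, (key v).1, mul_zero]
  refine ⟨hn, ?_⟩
  have hn0 : nuw w (f u) ≠ 0 := by
    intro h; rw [h] at hn1; simp at hn1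
  obtain ⟨e, he, hen, htr⟩ := exists_frame hn1
  choose a ha using fun k => exists_preimage hL hn0 hn (hen k)
  have hon : Orthonormal ℝ fun k => fderiv ℝ f u (a k) := by simpa [ha] using he
  rw [meanCurvAt_eq_smul hL hn1 hn, inner_meanCurvAt hf hon hn]
  congr 1
  have h8 : tr (shw w (f u)) = -‖gradient w (f u)‖⁻¹ *
      tr ((pt (nuw w (f u))).comp ((fderiv ℝ (gradient w) (f u)).comp (pt (nuw w (f u))))) := by
    simp [shw, tr]
  rw [h8, htr, Finset.mul_sum]
  refine Finset.sum_congr rfl fun k _ => ?_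
  have h9 := (key (a k)).2
  rw [ha k] at h9
  rw [nuw, inner_smul_right, real_inner_comm (gradient w (f u))]
  linear_combination (-‖gradient w (f u)‖⁻¹) * h9

/-- the two-point maximum principle -/
lemma two_point {f g : R2 → R3} {u v : R2} (hf : ContDiffAt ℝ 2 f u) (hg : ContDiffAt ℝ 2 g v)
    (hL : Function.Injective (fderiv ℝ f u)) (hL' : Function.Injective (fderiv ℝ g v))
    (hmin : IsLocalMin (fun z : R2 × R2 => ‖f z.1 - g z.2‖ ^ 2) (u, v)) :
    0 ≤ ⟪f u - g v, meanCurvAt f u - meanCurvAt g v⟫ := by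
  by_cases hd : f u - g v = 0
  · simp [hd]
  have key : ∀ a b : R2, ⟪f u - g v, fderiv ℝ f u a - fderiv ℝ g v b⟫ = 0 ∧
      0 ≤ ⟪f u - g v, fderiv ℝ (fderiv ℝ f) u a a - fderiv ℝ (fderiv ℝ g) v b b⟫ +
        ⟪fderiv ℝ f u a - fderiv ℝ g v b, fderiv ℝ f u a - fderiv ℝ g v b⟫ := by
    intro a b
    obtain ⟨h1, h2⟩ := line_jet hf a
    obtain ⟨h3, h4⟩ := line_jet hg b
    have hl : Tendsto (fun s : ℝ => (u + s • a, v + s • b)) (𝓝 0) (𝓝 (u, v)) := by
      have : Continuous fun s : ℝ => (u + s • a, v + s • b) := by fun_prop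
      simpa using this.tendsto 0
    have hm : IsLocalMin (fun s : ℝ => ⟪f (u + s • a) - g (v + s • b),
        f (u + s • a) - g (v + s • b)⟫) 0 := by
      filter_upwards [hl.eventually hmin] with s hs
      simpa [real_inner_self_eq_norm_sq] using hs
    have h5 : ∀ᶠ s in 𝓝 (0 : ℝ), HasDerivAt (fun s : ℝ => ⟪f (u + s • a) - g (v + s • b),
        f (u + s • a) - g (v + s • b)⟫) (2 * ⟪f (u + s • a) - g (v + s • b),
          fderiv ℝ f (u + s • a) a - fderiv ℝ g (v + s • b) b⟫) s := by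
      filter_upwards [h1, h3] with s hs hs'
      refine ((hs.fun_sub hs').inner ℝ (hs.fun_sub hs')).congr_deriv ?_
      rw [real_inner_comm (f (u + s • a) - g (v + s • b))]; ring
    have h6 := ((h1.self_of_nhds.fun_sub h3.self_of_nhds).inner ℝ (h2.fun_sub h4)).const_mul 2
    have h7 := second_nonneg hm h5 h6
    have h8 := hm.hasDerivAt_eq_zero h5.self_of_nhds
    simp only [zero_smul, add_zero] at h7 h8
    constructor <;> linarith
  set n : R3 := ‖f u - g v‖⁻¹ • (f u - g v) with hn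
  have hdn : ‖f u - g v‖ ≠ 0 := norm_ne_zero_iff.2 hd
  have hn1 : ‖n‖ = 1 := by rw [hn, norm_smul, norm_inv, norm_norm, inv_mul_cancel₀ hdn]
  have hf0 : ∀ a, ⟪fderiv ℝ f u a, f u - g v⟫ = 0 := fun a => by
    simpa [real_inner_comm] using (key a 0).1
  have hg0 : ∀ b, ⟪fderiv ℝ g v b, f u - g v⟫ = 0 := fun b => by
    simpa [real_inner_comm] using (key 0 b).1
  obtain ⟨e, he, hen, -⟩ := exists_frame hn1
  have hen' : ∀ k, ⟪e k, f u - g v⟫ = 0 := fun k => by
    have := hen k
    rw [hn, inner_smul_right] at this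
    exact (mul_eq_zero.1 this).resolve_left (inv_ne_zero hdn)
  choose a ha using fun k => exists_preimage hL hd hf0 (hen' k)
  choose b hb using fun k => exists_preimage hL' hd hg0 (hen' k)
  have hona : Orthonormal ℝ fun k => fderiv ℝ f u (a k) := by simpa [ha] using he
  have honb : Orthonormal ℝ fun k => fderiv ℝ g v (b k) := by simpa [hb] using he
  rw [real_inner_comm, inner_sub_left, inner_meanCurvAt hf hona hf0, inner_meanCurvAt hg honb hg0,
    ← Finset.sum_sub_distrib]
  refine Finset.sum_nonneg fun k _ => ?_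
  have := (key (a k) (b k)).2
  rw [ha, hb, sub_self, inner_zero_left, add_zero, real_inner_comm, inner_sub_left] at this
  exact this

/-- at a farthest point from the origin the mean curvature vector points inwards -/
lemma far_point {f : R2 → R3} {u : R2} (hf : ContDiffAt ℝ 2 f u)
    (hL : Function.Injective (fderiv ℝ f u)) (hmax : IsLocalMax (fun z => ‖f z‖ ^ 2) u)
    (hd : f u ≠ 0) : ⟪f u, meanCurvAt f u⟫ < 0 := by
  have key : ∀ a : R2, ⟪f u, fderiv ℝ f u a⟫ = 0 ∧
      ⟪f u, fderiv ℝ (fderiv ℝ f) u a a⟫ + ⟪fderiv ℝ f u a, fderiv ℝ f u a⟫ ≤ 0 := by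
    intro a
    obtain ⟨h1, h2⟩ := line_jet hf a
    have hl : Tendsto (fun s : ℝ => u + s • a) (𝓝 0) (𝓝 u) := by
      have : Continuous fun s : ℝ => u + s • a := by fun_prop
      simpa using this.tendsto 0
    have hm : IsLocalMin (fun s : ℝ => -⟪f (u + s • a), f (u + s • a)⟫) 0 := by
      filter_upwards [hl.eventually hmax] with s hs
      simpa [real_inner_self_eq_norm_sq] using hs
    have h5 : ∀ᶠ s in 𝓝 (0 : ℝ), HasDerivAt (fun s : ℝ => -⟪f (u + s • a), f (u + s • a)⟫)
        (-2 * ⟪f (u + s • a), fderiv ℝ f (u + s • a) a⟫) s := by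
      filter_upwards [h1] with s hs
      refine (hs.inner ℝ hs).fun_neg.congr_deriv ?_
      rw [real_inner_comm (f (u + s • a))]; ring
    have h6 := (h1.self_of_nhds.inner ℝ h2).const_mul (-2)
    have h7 := second_nonneg hm h5 h6
    have h8 := hm.hasDerivAt_eq_zero h5.self_of_nhds
    simp only [zero_smul, add_zero] at h7 h8
    constructor <;> linarith
  set n : R3 := ‖f u‖⁻¹ • f u with hn
  have hdn : ‖f u‖ ≠ 0 := norm_ne_zero_iff.2 hd
  have hn1 : ‖n‖ = 1 := by rw [hn, norm_smul, norm_inv, norm_norm, inv_mul_cancel₀ hdn]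
  have hf0 : ∀ a, ⟪fderiv ℝ f u a, f u⟫ = 0 := fun a => by
    simpa [real_inner_comm] using (key a).1
  obtain ⟨e, he, hen, -⟩ := exists_frame hn1
  have hen' : ∀ k, ⟪e k, f u⟫ = 0 := fun k => by
    have := hen k
    rw [hn, inner_smul_right] at this
    exact (mul_eq_zero.1 this).resolve_left (inv_ne_zero hdn)
  choose a ha using fun k => exists_preimage hL hd hf0 (hen' k)
  have hona : Orthonormal ℝ fun k => fderiv ℝ f u (a k) := by simpa [ha] using he
  rw [real_inner_comm, inner_meanCurvAt hf hona hf0, Fin.sum_univ_two]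
  have h0 := (key (a 0)).2
  have h1 := (key (a 1)).2
  rw [ha, real_inner_self_eq_norm_sq, he.1, real_inner_comm] at h0 h1
  linarith

end Vale.Agent.P218FS
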