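import Mathlib.Geometry.Euclidean.Volume.Measure
import Mathlib.Geometry.Manifold.MFDeriv.Defs
import Mathlib.Geometry.Manifold.ContMDiff.Defs
import Mathlib.Geometry.Manifold.Instances.Real
import Mathlib.Analysis.InnerProductSpace.Projection.Basic
import Mathlib.LinearAlgebra.Matrix.NonsingularInverse
import Mathlib.MeasureTheory.Integral.Bochner.Basic

/-! The smooth mean curvature flow of a closed embedded surface in Euclidean three-space, its
parabolic rescalings and its tangent flows. -/

open MeasureTheory Set Filter Topology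
open scoped Manifold ContDiff RealInnerProductSpace

namespace Vale.Agent.P218FS.St

section calculus

variable {P E : Type} [NormedAddCommGroup P] [NormedSpace ℝ P] [NormedAddCommGroup E]
  [InnerProductSpace ℝ E]

/-- the directional derivative `df_u(v)` -/
noncomputable def dirDeriv (f : P → E) (v : P) (u : P) : E := fderiv ℝ f u v

/-- the differential of `f` at `u` is injective -/
def IsImmersedAt (f : P → E) (u : P) : Prop := Function.Injective (fderiv ℝ f u)

/-- the normal part of the vector `X`: its orthogonal projection onto `(range df_u)^⊥` -/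
noncomputable def normalPart [FiniteDimensional ℝ E] (f : P → E) (u : P) (X : E) : E :=
  (fderiv ℝ f u).rangeᗮ.starProjection X

/-- `F : [0, T) × N → E` is smooth, `N` a manifold modelled on `P` -/
def IsSmoothFamily (P : Type) [NormedAddCommGroup P] [NormedSpace ℝ P] {N : Type*}
    [TopologicalSpace N] [ChartedSpace P N] (F : ℝ → N → E) (T : ℝ) : Prop :=
  ContMDiffOn (𝓘(ℝ, ℝ).prod 𝓘(ℝ, P)) 𝓘(ℝ, E) ∞ (fun q : ℝ × N => F q.1 q.2) (Ico 0 T ×ˢ univ)

/-- the differential of `φ : N → E` is injective at every point -/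
def IsImmersion (P : Type) [NormedAddCommGroup P] [NormedSpace ℝ P] {N : Type*}
    [TopologicalSpace N] [ChartedSpace P N] (φ : N → E) : Prop :=
  ∀ p, Function.Injective (mfderiv 𝓘(ℝ, P) 𝓘(ℝ, E) φ p)

end calculus

/-- the parameter plane -/
abbrev R2 : Type := EuclideanSpace ℝ (Fin 2)

/-- Euclidean three-space -/
abbrev R3 : Type := EuclideanSpace ℝ (Fin 3)

/-- the partial derivative `∂_i f` -/
noncomputable def pd (f : R2 → R3) (i : Fin 2) : R2 → R3 :=
  dirDeriv f (EuclideanSpace.single i 1)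

/-- the first fundamental form `g_ij = ⟨∂_i f, ∂_j f⟩` -/
noncomputable def metric (f : R2 → R3) (u : R2) : Matrix (Fin 2) (Fin 2) ℝ :=
  Matrix.of fun i j => ⟪pd f i u, pd f j u⟫

/-- the mean curvature vector of a parametrised surface: the normal part of `g^ij ∂_i ∂_j f` -/
noncomputable def meanCurvAt (f : R2 → R3) (u : R2) : R3 :=
  normalPart f u (∑ i, ∑ j, (metric f u)⁻¹ i j • pd (pd f j) i u)

/-- the mean curvature vector of `φ : N → ℝ³` at `p`, computed in the chart at `p` -/
noncomputable def meanCurv {N : Type*} [TopologicalSpace N] [ChartedSpace R2 N] (φ : N → R3)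
    (p : N) : R3 :=
  meanCurvAt (fun u => φ ((chartAt R2 p).symm u)) (chartAt R2 p p)

/-- `F : [0, T) × N → ℝ³` is a smooth family of immersions which starts at an embedding and
solves `∂_t F = H`. -/
structure IsSmoothMCF {N : Type*} [TopologicalSpace N] [ChartedSpace R2 N] (F : ℝ → N → R3)
    (T : ℝ) : Prop where
  smooth : IsSmoothFamily R2 F T
  immersion : ∀ t ∈ Ico 0 T, IsImmersion R2 (F t)
  embedding : Function.Injective (F 0)
  flow : ∀ t ∈ Ioo 0 T, ∀ p, HasDerivAt (fun s => F s p) (meanCurv (F t) p) t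

/-- the parabolic rescaling `μ^λ_s` about `(x₀, t₀)`: the push-forward of `λ² μ_{t₀ + s/λ²}` under
`x ↦ λ (x - x₀)` -/
noncomputable def rescaled (μ : ℝ → Measure R3) (x₀ : R3) (t₀ lam s : ℝ) : Measure R3 :=
  ENNReal.ofReal (lam ^ 2) • (μ (t₀ + s / lam ^ 2)).map (fun x => lam • (x - x₀))

/-- weak convergence of Radon measures along a filter: the integrals of all `φ ∈ C_c` converge -/
def WeakTendsto {ι : Type} (l : Filter ι) (u : ι → Measure R3) (ν : Measure R3) : Prop :=
  ∀ φ : R3 → ℝ, Continuous φ → HasCompactSupport φ →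
    Tendsto (fun i => ∫ x, φ x ∂(u i)) l (𝓝 (∫ x, φ x ∂ν))

/-- `(ν_s)_{s < 0}` is a tangent flow of `μ` at `(x₀, t₀)`: a family of Radon measures which is the
weak limit, for every `s < 0`, of `μ^{λ_i}_s` along some sequence `λ_i → ∞` -/
def IsTangentFlow (μ : ℝ → Measure R3) (x₀ : R3) (t₀ : ℝ) (ν : ℝ → Measure R3) : Prop :=
  (∀ s < 0, IsLocallyFiniteMeasure (ν s)) ∧ ∃ lam : ℕ → ℝ, Tendsto lam atTop atTop ∧
    ∀ s < 0, WeakTendsto atTop (fun i => rescaled μ x₀ t₀ (lam i) s) (ν s)

/-- `S` is a smooth properly embedded self-shrinker: `S` is closed, and every `x ∈ S` has a smooth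
local parametrisation `f` (`f u = x`, `df_u` is injective, and `f` maps the neighbourhoods of `u`
onto the neighbourhoods of `x` in `S`), for which `H + X^⊥ / 2 = 0` at `x` -/
structure IsShrinker (S : Set R3) : Prop where
  closed : IsClosed S
  param : ∀ x ∈ S, ∃ (f : R2 → R3) (u : R2), ContDiff ℝ ∞ f ∧ f u = x ∧ IsImmersedAt f u ∧
    Filter.map f (𝓝 u) = 𝓝[S] x ∧ meanCurvAt f u + (1 / 2 : ℝ) • normalPart f u x = 0

/-- the area measure `ℋ² ⌞ M` (Hausdorff measure in the Euclidean normalisation) -/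
noncomputable def area (M : Set R3) : Measure R3 := (μHE[2] : Measure R3).restrict M

/-- the self-similar flow `s ↦ ℋ² ⌞ √(-s) S` -/
noncomputable def shrinkerFlow (S : Set R3) (s : ℝ) : Measure R3 :=
  area ((fun x => √(-s) • x) '' S)

/-- the flow reaches `x₀` at time `t₀`: `x₀` is a limit of points `x_i ∈ M_{t_i}` with `t_i ↑ t₀` -/
def IsReached {N : Type*} (F : ℝ → N → R3) (x₀ : R3) (t₀ : ℝ) : Prop :=
  ∃ (t : ℕ → ℝ) (p : ℕ → N), (∀ i, t i < t₀) ∧ Tendsto t atTop (𝓝 t₀) ∧
    Tendsto (fun i => F (t i) (p i)) atTop (𝓝 x₀)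

end Vale.Agent.P218FS.St
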